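import Vale.Agent.P266.Poly

/-!
Eigen decomposition of an abelian cover of affine space: every eigen space is generated by
one element `u χ` whose `N`-th power is an `N`-th-power-free polynomial.
-/

namespace Vale.Agent.P266

open MvPolynomial

noncomputable section

variable {n : ℕ} {A : Type*} [CommRing A] [IsDomain A] [Algebra ℂ A] [Algebra (Pol n) A]
  [IsScalarTower ℂ (Pol n) A] [FaithfulSMul (Pol n) A] [IsIntegrallyClosed A]
  {G : Type*} [CommGroup G] [Fintype G] [MulSemiringAction G A] [SMulCommClass G (Pol n) A]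
  [Algebra.IsInvariant (Pol n) A G] [SMulCommClass G ℂ A]

set_option linter.unusedSectionVars false

/-- The structure map of the cover. -/
abbrev up (A : Type*) [CommRing A] [Algebra (Pol n) A] : Pol n →+* A := algebraMap (Pol n) A

/-- `b` is an eigenvector of character `χ`. -/
def Eig (χ : G →* ℂˣ) (b : A) : Prop := ∀ g : G, g • b = algebraMap ℂ A (χ g : ℂ) * b

/-- The group order. -/
abbrev ord (G : Type*) [Fintype G] : ℕ := Fintype.card G

lemma up_C (z : ℂ) : up (n := n) A (C z) = algebraMap ℂ A z :=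
  (IsScalarTower.algebraMap_apply ℂ (Pol n) A z).symm

lemma smul_up (g : G) (p : Pol n) : g • up A p = up A p := smul_algebraMap g p

lemma smul_const (g : G) (z : ℂ) : g • algebraMap ℂ A z = algebraMap ℂ A z :=
  smul_algebraMap g z

lemma up_inj : Function.Injective (up (n := n) A) := FaithfulSMul.algebraMap_injective _ _

lemma up_ne {p : Pol n} (h : p ≠ 0) : up A p ≠ 0 := (map_ne_zero_iff _ up_inj).2 h

lemma ord_pos : 0 < ord G := Fintype.card_pos

lemma natCast_ord_ne : ((ord G : ℕ) : ℂ) ≠ 0 := Nat.cast_ne_zero.2 ord_pos.ne'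

lemma Eig.mul {χ ψ : G →* ℂˣ} {a b : A} (ha : Eig χ a) (hb : Eig ψ b) :
    Eig (χ * ψ) (a * b) := fun g => by
  rw [smul_mul', ha g, hb g]; simp; ring

lemma eig_one : Eig (1 : G →* ℂˣ) (1 : A) := fun g => by simp

lemma Eig.up_mul {χ : G →* ℂˣ} {b : A} (hb : Eig χ b) (p : Pol n) : Eig χ (up A p * b) :=
  fun g => by rw [smul_mul', smul_up, hb g]; ring

lemma Eig.pow {χ : G →* ℂˣ} {a : A} (ha : Eig χ a) : ∀ k, Eig (χ ^ k) (a ^ k)
  | 0 => by simpa using eig_one
  | k + 1 => by rw [pow_succ, pow_succ]; exact (Eig.pow ha k).mul ha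

lemma char_pow_ord (χ : G →* ℂˣ) : χ ^ ord G = 1 := by
  ext g; simp [← Units.val_pow_eq_pow_val, ← map_pow, pow_card_eq_one]

lemma Eig.mem_range {b : A} (hb : Eig (1 : G →* ℂˣ) b) : ∃ p : Pol n, up A p = b :=
  Algebra.IsInvariant.isInvariant (G := G) b fun g => by simpa using hb g

lemma Eig.pow_ord {χ : G →* ℂˣ} {a : A} (ha : Eig χ a) : ∃ p : Pol n, up A p = a ^ ord G := by
  have := ha.pow (ord G)
  rw [char_pow_ord] at this
  exact this.mem_range

/-- The projection to the `χ`-eigen space. -/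
def eigProj (χ : G →* ℂˣ) (b : A) : A :=
  algebraMap ℂ A ((ord G : ℂ))⁻¹ * ∑ g : G, algebraMap ℂ A ((χ g)⁻¹ : ℂˣ) * (g • b)

lemma eig_eigProj (χ : G →* ℂˣ) (b : A) : Eig χ (eigProj χ b) := by
  intro h
  unfold eigProj
  rw [smul_mul', smul_const, Finset.smul_sum, mul_left_comm]
  congr 1
  rw [Finset.mul_sum]
  refine Fintype.sum_equiv (Equiv.mulLeft h) _ _ fun g => ?_
  rw [smul_mul', smul_const, smul_smul, Equiv.coe_mulLeft, ← mul_assoc, ← map_mul]
  congr 2
  simp only [map_mul, mul_inv, Units.val_mul, Units.val_inv_eq_inv_val]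
  field_simp

instance : Fintype (G →* ℂˣ) := Fintype.ofFinite _

lemma sum_char (g : G) (hg : g ≠ 1) : ∑ χ : G →* ℂˣ, ((χ g : ℂˣ) : ℂ) = 0 := by
  obtain ⟨φ, hφ⟩ := CommGroup.exists_apply_ne_one_of_hasEnoughRootsOfUnity G ℂ hg
  have h : ((φ g : ℂˣ) : ℂ) * ∑ χ : G →* ℂˣ, ((χ g : ℂˣ) : ℂ)
      = ∑ χ : G →* ℂˣ, ((χ g : ℂˣ) : ℂ) := by
    rw [Finset.mul_sum]
    exact Fintype.sum_equiv (Equiv.mulLeft φ) _ _ fun χ => by simp
  have h' : ((φ g : ℂˣ) : ℂ) ≠ 1 := fun e => hφ (Units.ext e)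
  by_contra hs
  exact h' (mul_right_cancel₀ hs (h.trans (one_mul _).symm))

lemma sum_eigProj (b : A) : ∑ χ : G →* ℂˣ, eigProj χ b = b := by
  classical
  have hc : Fintype.card (G →* ℂˣ) = ord G := by
    have := CommGroup.card_monoidHom_of_hasEnoughRootsOfUnity G ℂ
    simpa [Nat.card_eq_fintype_card] using this
  have h : ∀ g : G, ∑ χ : G →* ℂˣ, algebraMap ℂ A ((χ g)⁻¹ : ℂˣ)
      = if g = 1 then algebraMap ℂ A (ord G : ℂ) else 0 := by
    intro g
    rw [← map_sum]
    split_ifs with hg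
    · simp [hg, hc]
    · have : g⁻¹ ≠ 1 := by simpa using hg
      rw [show (∑ χ : G →* ℂˣ, (((χ g)⁻¹ : ℂˣ) : ℂ)) = 0 by simpa using sum_char g⁻¹ this,
        map_zero]
  unfold eigProj
  rw [← Finset.mul_sum, Finset.sum_comm]
  simp only [← Finset.sum_mul, h, ite_mul, zero_mul, Finset.sum_ite_eq', Finset.mem_univ, if_true,
    one_smul]
  rw [← mul_assoc, ← map_mul, inv_mul_cancel₀ natCast_ord_ne, map_one, one_mul]

/-- Characters that occur in `A`. -/
def Occ (A : Type*) [CommRing A] [Algebra ℂ A] (G : Type*) [CommGroup G]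
    [MulSemiringAction G A] : Type _ := {χ : G →* ℂˣ // ∃ b : A, b ≠ 0 ∧ ∀ g : G,
      g • b = algebraMap ℂ A (χ g : ℂ) * b}

instance : Finite (Occ A G) := Subtype.finite

instance : Fintype (Occ A G) := Fintype.ofFinite _

/-- Data of a generator of an eigen space. -/
lemma exists_gen (χ : Occ A G) : ∃ (u : A) (c : Pol n), Eig χ.1 u ∧ u ≠ 0 ∧
    u ^ ord G = up A c ∧ (∀ q, q ^ ord G ∣ c → IsUnit q) ∧
    ∀ b, Eig χ.1 b → ∃ p : Pol n, b = up A p * u := by
  classical
  obtain ⟨b0, hb0, he⟩ := χ.2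
  obtain ⟨c0, hc0⟩ := Eig.pow_ord (n := n) (show Eig χ.1 b0 from he)
  have hc0ne : c0 ≠ 0 := by
    rintro rfl
    rw [map_zero] at hc0
    exact pow_ne_zero _ hb0 hc0.symm
  obtain ⟨e, ⟨ρ, hρ⟩, hmin⟩ := (wellFounded_dvdNotUnit (α := Pol n)).has_min
    {e | ∃ ρ, c0 = ρ ^ ord G * e} ⟨c0, 1, by simp⟩
  have hρne : ρ ≠ 0 := by
    rintro rfl; simp [zero_pow ord_pos.ne'] at hρ; exact hc0ne hρ
  have hene : e ≠ 0 := by rintro rfl; simp at hρ; exact hc0ne hρ
  have hfree : ∀ q, q ^ ord G ∣ e → IsUnit q := by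
    rintro q ⟨w, hw⟩
    by_contra hq
    refine hmin w ⟨ρ * q, ?_⟩ ⟨?_, q ^ ord G, fun h => hq ((isUnit_pow_iff ord_pos.ne').1 h), ?_⟩
    · rw [hρ, hw]; ring
    · rintro rfl; simp [hene] at hw
    · rw [hw]; ring
  let K := FractionRing A
  have hK : algebraMap A K (up A ρ) ≠ 0 :=
    (map_ne_zero_iff _ (IsFractionRing.injective A K)).2 (up_ne hρne)
  have hx : (algebraMap A K b0 / algebraMap A K (up A ρ)) ^ ord G = algebraMap A K (up A e) := by
    rw [div_pow, div_eq_iff (pow_ne_zero _ hK), ← map_pow, ← map_pow, ← map_mul, ← hc0, hρ,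
      ← map_pow, ← map_mul, mul_comm]
  have hint : IsIntegral A (algebraMap A K b0 / algebraMap A K (up A ρ)) :=
    IsIntegral.of_pow ord_pos (by rw [hx]; exact isIntegral_algebraMap)
  obtain ⟨u, hu⟩ := IsIntegrallyClosed.isIntegral_iff.1 hint
  have hub : up A ρ * u = b0 := by
    apply IsFractionRing.injective A K
    rw [map_mul, hu, mul_div_cancel₀ _ hK]
  have hue : u ^ ord G = up A e := by
    apply IsFractionRing.injective A K
    rw [map_pow, hu, hx]
  have hu0 : u ≠ 0 := by rintro rfl; exact hb0 (by simp [← hub])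
  have heu : Eig χ.1 u := by
    intro g
    have := he g
    rw [← hub, smul_mul', smul_up, mul_left_comm] at this
    exact mul_left_cancel₀ (up_ne hρne) this
  refine ⟨u, e, heu, hu0, hue, hfree, fun b hb => ?_⟩
  obtain ⟨d, hd⟩ := Eig.pow_ord (n := n) hb
  obtain ⟨r, hr⟩ : ∃ r : Pol n, up A r = b * u ^ (ord G - 1) := by
    have := hb.mul (heu.pow (ord G - 1))
    rw [← pow_succ', Nat.sub_add_cancel ord_pos, char_pow_ord] at this
    exact this.mem_range
  have hbe : b * up A e = up A r * u := by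
    rw [hr, ← hue, mul_assoc, ← pow_succ, Nat.sub_add_cancel ord_pos]
  have heq : d * e ^ ord G = r ^ ord G * e := by
    apply up_inj (A := A)
    rw [map_mul, map_mul, map_pow, map_pow, hd, ← mul_pow, hbe, mul_pow, hue]
  obtain ⟨r', e', g, hcop, rfl, rfl⟩ := UniqueFactorizationMonoid.exists_reduced_factors' r e hene
  have hg : g ≠ 0 := left_ne_zero_of_mul hene
  have hdvd : (e' : Pol n) ^ (ord G - 1) ∣ g := by
    refine ((hcop.pow (m := ord G) (n := ord G - 1)).symm.dvd_of_dvd_mul_left (y := r' ^ ord G)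
      (z := g) ?_)
    have he' : e' ≠ 0 := right_ne_zero_of_mul hene
    refine ⟨d, mul_left_cancel₀ (mul_ne_zero he' (pow_ne_zero (ord G) hg)) ?_⟩
    have hs : e' ^ ord G = e' * e' ^ (ord G - 1) := by
      rw [← pow_succ', Nat.sub_add_cancel ord_pos]
    calc e' * g ^ ord G * (r' ^ ord G * g) = (g * r') ^ ord G * (g * e') := by ring
      _ = d * (g * e') ^ ord G := heq.symm
      _ = e' * g ^ ord G * (e' ^ (ord G - 1) * d) := by rw [mul_pow, hs]; ring
  have hunit : IsUnit e' := hfree e' (by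
    rw [← Nat.sub_add_cancel (ord_pos (G := G)), pow_succ]; exact mul_dvd_mul hdvd dvd_rfl)
  obtain ⟨w, rfl⟩ := hunit
  refine ⟨r' * (↑w⁻¹ : Pol n), mul_right_cancel₀ (up_ne hene) ?_⟩
  rw [hbe, map_mul, map_mul, map_mul,
    show up A g * up A r' * u = up A g * up A r' * (up A (↑w⁻¹ : Pol n) * up A (w : Pol n)) * u by
      rw [← map_mul (up A) (↑w⁻¹ : Pol n), Units.inv_mul, map_one, mul_one]]
  ring

/-- The generator of an eigen space. -/
def gen (χ : Occ A G) : A := (exists_gen (n := n) χ).choose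

/-- The polynomial that is the power of the generator. -/
def pw (χ : Occ A G) : Pol n := (exists_gen (n := n) χ).choose_spec.choose

lemma gen_spec (χ : Occ A G) : Eig χ.1 (gen (n := n) χ) ∧ gen (n := n) χ ≠ 0 ∧
    gen (n := n) χ ^ ord G = up A (pw (n := n) χ) ∧ (∀ q, q ^ ord G ∣ pw (n := n) χ → IsUnit (q : Pol n)) ∧
    ∀ b, Eig χ.1 b → ∃ p : Pol n, b = up A p * gen (n := n) χ :=
  (exists_gen (n := n) χ).choose_spec.choose_spec

lemma pw_ne (χ : Occ A G) : (pw (n := n) χ : Pol n) ≠ 0 := by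
  intro h
  have := (gen_spec (n := n) χ).2.2.1
  rw [h, map_zero] at this
  exact pow_ne_zero _ (gen_spec (n := n) χ).2.1 this

/-- The exponent of the generator at a prime. -/
def expo (π : Pol n) (χ : Occ A G) : ℕ := multiplicity π (pw (n := n) χ)

lemma mult_mul {π a b : Pol n} (hπ : Prime π) (ha : a ≠ 0) (hb : b ≠ 0) :
    multiplicity π (a * b) = multiplicity π a + multiplicity π b :=
  multiplicity_mul hπ (FiniteMultiplicity.of_prime_left hπ (mul_ne_zero ha hb))

lemma mult_pow {π a : Pol n} (hπ : Prime π) (ha : a ≠ 0) (k : ℕ) :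
    multiplicity π (a ^ k) = k * multiplicity π a :=
  FiniteMultiplicity.multiplicity_pow hπ (FiniteMultiplicity.of_prime_left hπ ha)

lemma mult_pos_iff {π a : Pol n} (hπ : Prime π) (ha : a ≠ 0) :
    0 < multiplicity π a ↔ π ∣ a := by
  rw [← Nat.one_le_iff_ne_zero.trans Nat.pos_iff_ne_zero.symm,
    ← (FiniteMultiplicity.of_prime_left hπ ha).pow_dvd_iff_le_multiplicity, pow_one]

lemma expo_lt {π : Pol n} (hπ : Prime π) (χ : Occ A G) : expo π χ < ord G := by
  by_contra h
  push Not at h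
  exact hπ.not_isUnit ((gen_spec (n := n) χ).2.2.2.1 π (pow_dvd_of_le_multiplicity h))

/-- The product of two occurring characters. -/
def oMul (χ ψ : Occ A G) : Occ A G :=
  ⟨χ.1 * ψ.1, by
    obtain ⟨a, ha, ha'⟩ := χ.2
    obtain ⟨b, hb, hb'⟩ := ψ.2
    exact ⟨a * b, mul_ne_zero ha hb, (show Eig χ.1 a from ha').mul hb'⟩⟩

/-- The trivial character. -/
def oOne : Occ A G := ⟨1, 1, one_ne_zero, eig_one⟩

lemma gen_mul (χ ψ : Occ A G) : ∃ p : Pol n, p ≠ 0 ∧
    gen (n := n) χ * gen (n := n) ψ = up A p * gen (n := n) (oMul χ ψ) ∧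
    p ^ ord G * pw (oMul χ ψ) = pw (n := n) χ * pw (n := n) ψ := by
  have h1 := gen_spec (n := n) χ
  have h2 := gen_spec (n := n) ψ
  obtain ⟨p, hp⟩ := (gen_spec (n := n) (oMul χ ψ)).2.2.2.2 _ (h1.1.mul h2.1)
  have hp0 : p ≠ 0 := by
    rintro rfl
    rw [map_zero, zero_mul] at hp
    exact mul_ne_zero h1.2.1 h2.2.1 hp
  refine ⟨p, hp0, hp, up_inj (A := A) ?_⟩
  rw [map_mul, map_mul, map_pow, ← (gen_spec (n := n) (oMul χ ψ)).2.2.1, ← h1.2.2.1, ← h2.2.2.1,
    ← mul_pow, ← mul_pow, hp]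

lemma expo_add {π : Pol n} (hπ : Prime π) (χ ψ : Occ A G) {p : Pol n} (hp : p ≠ 0)
    (h : p ^ ord G * pw (oMul χ ψ) = pw (n := n) χ * pw ψ) :
    expo π χ + expo π ψ = ord G * multiplicity π p + expo π (oMul χ ψ) := by
  unfold expo
  rw [← mult_mul hπ (pw_ne χ) (pw_ne ψ), ← h, mult_mul hπ (pow_ne_zero _ hp) (pw_ne _),
    mult_pow hπ hp]

lemma span_gen (b : A) : ∃ r : Occ A G → Pol n, b = ∑ χ, up A (r χ) * gen (n := n) χ := by
  classical
  have h : ∀ χ : Occ A G, ∃ p : Pol n, eigProj χ.1 b = up A p * gen (n := n) χ := fun χ =>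
    (gen_spec (n := n) χ).2.2.2.2 _ (eig_eigProj χ.1 b)
  choose r hr using h
  refine ⟨r, ?_⟩
  conv_lhs => rw [← sum_eigProj b (G := G)]
  simp only [← hr]
  have hs : ∀ χ : G →* ℂˣ, χ ∉ (Finset.univ : Finset (Occ A G)).image (fun x : Occ A G => x.1) →
      eigProj χ b = 0 := by
    intro χ hχ
    by_contra h0
    exact hχ (Finset.mem_image.2 ⟨⟨χ, _, h0, eig_eigProj χ b⟩, Finset.mem_univ _, rfl⟩)
  rw [← Finset.sum_image (f := fun χ => eigProj χ b) (g := fun x : Occ A G => x.1)
    Subtype.val_injective.injOn]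
  exact (Finset.sum_subset (Finset.subset_univ _) fun χ _ hχ => hs χ hχ).symm

lemma eigProj_eig (χ ψ : G →* ℂˣ) {b : A} (hb : Eig ψ b) (hne : χ ≠ ψ) : eigProj χ b = 0 := by
  obtain ⟨h, hh⟩ : ∃ h : G, χ h ≠ ψ h := by
    by_contra hc
    push Not at hc
    exact hne (MonoidHom.ext hc)
  have h1 := eig_eigProj χ b h
  have h2 : h • eigProj χ b = algebraMap ℂ A (ψ h : ℂ) * eigProj χ b := by
    unfold eigProj
    rw [smul_mul', smul_const, Finset.smul_sum, mul_left_comm, Finset.mul_sum _ _ (algebraMap ℂ A (ψ h : ℂ))]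
    congr 1
    refine Finset.sum_congr rfl fun g _ => ?_
    rw [smul_mul', smul_const, hb g, smul_mul', smul_const, hb h]
    ring
  rw [h1, ← sub_eq_zero, ← sub_mul, ← map_sub] at h2
  refine (mul_eq_zero.1 h2).resolve_left ?_
  rw [map_eq_zero_iff _ (algebraMap ℂ A).injective, sub_eq_zero]
  exact fun e => hh (Units.ext e)

lemma eigProj_self (χ : G →* ℂˣ) {b : A} (hb : Eig χ b) : eigProj χ b = b := by
  classical
  conv_rhs => rw [← sum_eigProj b (G := G)]
  rw [Finset.sum_eq_single χ (fun ψ _ hψ => eigProj_eig ψ χ hb hψ) (by simp)]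

lemma indep_gen : LinearIndependent (Pol n) (fun χ : Occ A G => gen (n := n) χ) := by
  classical
  rw [Fintype.linearIndependent_iff]
  intro r hr χ
  simp only [Algebra.smul_def] at hr
  have h := congrArg (eigProj χ.1) hr
  have hlin : ∀ (s : Finset (Occ A G)) (f : Occ A G → A),
      eigProj χ.1 (∑ ψ ∈ s, f ψ) = ∑ ψ ∈ s, eigProj χ.1 (f ψ) := by
    intro s f
    unfold eigProj
    rw [← Finset.mul_sum, Finset.sum_comm]
    simp [Finset.smul_sum, Finset.mul_sum]
  have h0 : eigProj χ.1 (0 : A) = 0 := by simp [eigProj]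
  rw [hlin, h0, Finset.sum_eq_single χ, eigProj_self _
    (((gen_spec (n := n) χ).1).up_mul (r χ))] at h
  · exact up_inj (A := A) (by simpa using (mul_eq_zero.1 h).resolve_right (gen_spec (n := n) χ).2.1)
  · intro ψ _ hψ
    exact eigProj_eig _ _ (((gen_spec (n := n) ψ).1).up_mul (r ψ))
      (fun e => hψ (Subtype.ext e.symm))
  · simp

/-- The eigen basis of the cover. -/
def genBasis : Module.Basis (Occ A G) (Pol n) A :=
  Module.Basis.mk indep_gen (by
    intro b _
    obtain ⟨r, hr⟩ := span_gen (n := n) (G := G) b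
    rw [hr]
    refine Submodule.sum_mem _ fun χ _ => ?_
    rw [← Algebra.smul_def]
    exact Submodule.smul_mem _ _ (Submodule.subset_span ⟨χ, rfl⟩))

lemma genBasis_apply (χ : Occ A G) : genBasis (n := n) χ = gen (n := n) χ :=
  Module.Basis.mk_apply _ _ _

/-- Construction of a vector field on the cover from values on the generators. -/
lemma exists_field (T : Derivation ℂ (Pol n) (Pol n)) (f : A) (Q : Occ A G → A)
    (hQ : ∀ χ, (ord G : A) * up A (pw (n := n) χ) * Q χ = up A (T (pw (n := n) χ)) * f * gen (n := n) χ) :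
    ∃ D : Derivation ℂ A A, (∀ p, D (up A p) = up A (T p) * f) ∧
      ∀ χ, D (gen (n := n) χ) = Q χ := by
  classical
  let B := genBasis (n := n) (A := A) (G := G)
  let L : A →ₗ[ℂ] A :=
    { toFun := fun b => ∑ χ, (up A (T (B.repr b χ)) * f * gen (n := n) χ + up A (B.repr b χ) * Q χ)
      map_add' := fun a b => by
        rw [← Finset.sum_add_distrib]
        exact Finset.sum_congr rfl fun χ _ => by simp; ring
      map_smul' := fun z b => by
        rw [RingHom.id_apply, Finset.smul_sum]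
        refine Finset.sum_congr rfl fun χ _ => ?_
        rw [algebra_compatible_smul (Pol n) z b, map_smul, Finsupp.smul_apply,
          smul_eq_mul, MvPolynomial.algebraMap_eq, Derivation.leibniz, derivation_C]
        simp only [smul_eq_mul, mul_zero, add_zero, map_mul, up_C, Algebra.smul_def]
        ring }
  have hL : ∀ (p : Pol n) (χ), L (up A p * gen (n := n) χ)
      = up A (T p) * f * gen (n := n) χ + up A p * Q χ := by
    intro p χ
    have : B.repr (up A p * gen (n := n) χ) = Finsupp.single χ p := by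
      rw [← Algebra.smul_def, ← genBasis_apply, map_smul, Module.Basis.repr_self,
        Finsupp.smul_single, smul_eq_mul, mul_one]
    simp only [L, LinearMap.coe_mk, AddHom.coe_mk, this]
    rw [Finset.sum_eq_single χ (fun ψ _ hψ => by simp [Finsupp.single_eq_of_ne hψ]) (by simp)]
    simp
  have hgen : ∀ χ ψ, L (gen (n := n) χ * gen (n := n) ψ)
      = gen (n := n) χ * Q ψ + gen (n := n) ψ * Q χ := by
    intro χ ψ
    obtain ⟨p, hp0, hp, hpw⟩ := gen_mul (n := n) χ ψ
    rw [hp, hL]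
    have hd : (ord G : A) * up A p ^ (ord G - 1) * up A (T p) * up A (pw (n := n) (oMul χ ψ))
        + up A p ^ ord G * up A (T (pw (n := n) (oMul χ ψ)))
        = up A (pw (n := n) χ) * up A (T (pw (n := n) ψ)) + up A (pw (n := n) ψ) * up A (T (pw (n := n) χ)) := by
      have := congrArg (fun x => up A (T x)) hpw
      simp only [Derivation.leibniz, Derivation.leibniz_pow, smul_eq_mul, nsmul_eq_mul, map_add,
        map_mul, map_natCast, map_pow] at this
      linear_combination this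
    have hw : up A p ^ ord G * up A (pw (n := n) (oMul χ ψ)) = up A (pw (n := n) χ) * up A (pw (n := n) ψ) := by
      rw [← map_pow, ← map_mul, ← map_mul, hpw]
    have hpn : up A p ^ ord G = up A p * up A p ^ (ord G - 1) := by
      rw [← pow_succ', Nat.sub_add_cancel ord_pos]
    have hN : (ord G : A) ≠ 0 := by
      rw [← map_natCast (algebraMap ℂ A)]
      exact (map_ne_zero_iff _ (algebraMap ℂ A).injective).2 natCast_ord_ne
    apply mul_left_cancel₀ (mul_ne_zero (mul_ne_zero hN (up_ne (A := A) (pw_ne (n := n) χ)))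
      (up_ne (A := A) (pw_ne (n := n) ψ)))
    linear_combination (-((ord G : A) * (up A (T p) * f * gen (n := n) (oMul χ ψ)
        + up A p * Q (oMul χ ψ)))) * hw
      + up A p * up A p ^ ord G * hQ (oMul χ ψ)
      + ((ord G : A) * up A (T p) * f * gen (n := n) (oMul χ ψ) * up A (pw (n := n) (oMul χ ψ))) * hpn
      + up A p * f * gen (n := n) (oMul χ ψ) * hd
      - gen (n := n) χ * up A (pw (n := n) χ) * hQ ψ - gen (n := n) ψ * up A (pw (n := n) ψ) * hQ χ
      - f * (up A (pw (n := n) χ) * up A (T (pw (n := n) ψ)) + up A (pw (n := n) ψ) * up A (T (pw (n := n) χ))) * hp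
  have hleib : ∀ a b, L (a * b) = a • L b + b • L a := by
    intro a b
    obtain ⟨r, rfl⟩ := span_gen (n := n) (G := G) a
    obtain ⟨s, rfl⟩ := span_gen (n := n) (G := G) b
    simp only [Finset.sum_mul, Finset.mul_sum, map_sum, smul_eq_mul]
    conv_rhs => arg 2; rw [Finset.sum_comm]
    rw [← Finset.sum_add_distrib]
    refine Finset.sum_congr rfl fun ψ _ => ?_
    rw [← Finset.sum_add_distrib]
    refine Finset.sum_congr rfl fun χ _ => ?_
    obtain ⟨p, -, hp, -⟩ := gen_mul (n := n) χ ψ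
    have h1 := hgen χ ψ
    rw [hp, hL] at h1
    rw [show up A (r χ) * gen (n := n) χ * (up A (s ψ) * gen (n := n) ψ)
        = up A (r χ * s ψ * p) * gen (n := n) (oMul χ ψ) by
      simp only [map_mul]; linear_combination up A (r χ) * up A (s ψ) * hp, hL, hL, hL]
    simp only [Derivation.leibniz, smul_eq_mul, map_add, map_mul]
    linear_combination up A (r χ) * up A (s ψ) * h1
      - (up A (r χ) * up A (T (s ψ)) + up A (s ψ) * up A (T (r χ))) * f * hp
  refine ⟨Derivation.mk' L hleib, fun p => ?_, fun χ => ?_⟩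
  · have h1 := hleib (up A p) (gen (n := n) (oOne : Occ A G))
    have h2 := hL 1 (oOne : Occ A G)
    simp only [map_one, one_mul, Derivation.map_one_eq_zero, map_zero, zero_mul, zero_add] at h2
    rw [hL, smul_eq_mul, smul_eq_mul, h2] at h1
    apply mul_right_cancel₀ (gen_spec (n := n) (oOne : Occ A G)).2.1
    rw [show Derivation.mk' L hleib (up A p) = L (up A p) from rfl]
    linear_combination (-1 : A) * h1
  · simpa using hL 1 χ

lemma field_ext {D D' : Derivation ℂ A A}
    (G : Type*) [CommGroup G] [Fintype G] [MulSemiringAction G A] [SMulCommClass G (Pol n) A]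
    [Algebra.IsInvariant (Pol n) A G] [SMulCommClass G ℂ A]
    (h : ∀ p : Pol n, D (up A p) = D' (up A p)) :
    D = D' := by
  classical
  have hu : ∀ χ : Occ A G, D (gen (n := n) χ) = D' (gen (n := n) χ) := by
    intro χ
    have h1 := h (pw (n := n) χ)
    rw [← (gen_spec (n := n) χ).2.2.1, Derivation.leibniz_pow, Derivation.leibniz_pow] at h1
    have hN : (ord G : A) ≠ 0 := by
      rw [← map_natCast (algebraMap ℂ A)]
      exact (map_ne_zero_iff _ (algebraMap ℂ A).injective).2 natCast_ord_ne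
    simp only [nsmul_eq_mul, smul_eq_mul] at h1
    exact mul_left_cancel₀ (pow_ne_zero _ (gen_spec (n := n) χ).2.1) (mul_left_cancel₀ hN h1)
  refine Derivation.ext fun b => ?_
  obtain ⟨r, rfl⟩ := span_gen (n := n) (G := G) b
  simp [Derivation.leibniz, h, hu]

end

end Vale.Agent.P266
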