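import Vale.Agent.P266.Char

/-!
An adapted local frame of eigen vector fields when the module of vector fields is projective.
-/

namespace Vale.Agent.P266

open MvPolynomial

noncomputable section

universe uA

variable {n : ℕ} {A : Type uA} [CommRing A] [IsDomain A] [Algebra ℂ A] [Algebra (Pol n) A]
  [IsScalarTower ℂ (Pol n) A] [FaithfulSMul (Pol n) A] [IsIntegrallyClosed A]
  {G : Type*} [CommGroup G] [Fintype G] [MulSemiringAction G A] [SMulCommClass G (Pol n) A]
  [Algebra.IsInvariant (Pol n) A G] [SMulCommClass G ℂ A]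

set_option linter.unusedSectionVars false

/-- An eigen vector field. -/
def DEig (χ : G →* ℂˣ) (D : Derivation ℂ A A) : Prop :=
  ∀ (g : G) (b : A), g • D b = algebraMap ℂ A (χ g : ℂ) * D (g • b)

lemma DEig.apply_up {χ : G →* ℂˣ} {D : Derivation ℂ A A} (h : DEig χ D) (p : Pol n) :
    Eig χ (D (up A p)) := fun g => by rw [h g, smul_up]

/-- The linear map underlying a component of a vector field. -/
def compLin (χ : G →* ℂˣ) (D : Derivation ℂ A A) : A →ₗ[ℂ] A where
  toFun b := algebraMap ℂ A ((ord G : ℂ))⁻¹ *
    ∑ g : G, algebraMap ℂ A ((χ g)⁻¹ : ℂˣ) * (g • D (g⁻¹ • b))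
  map_add' a b := by
    rw [← mul_add, ← Finset.sum_add_distrib]
    congr 1
    exact Finset.sum_congr rfl fun g _ => by rw [smul_add, map_add, smul_add, mul_add]
  map_smul' z b := by
    simp only [RingHom.id_apply, smul_comm _ z, Derivation.map_smul, mul_smul_comm,
      ← Finset.smul_sum]

/-- A component of a vector field. -/
def comp (χ : G →* ℂˣ) (D : Derivation ℂ A A) : Derivation ℂ A A :=
  Derivation.mk' (compLin χ D) fun a b => by
    simp only [compLin, LinearMap.coe_mk, AddHom.coe_mk, smul_eq_mul]
    rw [mul_left_comm a, mul_left_comm b, Finset.mul_sum _ _ a, Finset.mul_sum _ _ b, ← mul_add,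
      ← Finset.sum_add_distrib]
    congr 1
    refine Finset.sum_congr rfl fun g _ => ?_
    rw [smul_mul', Derivation.leibniz, smul_eq_mul, smul_eq_mul, smul_add, smul_mul', smul_mul',
      smul_inv_smul, smul_inv_smul]
    ring

lemma comp_apply (χ : G →* ℂˣ) (D : Derivation ℂ A A) (b : A) :
    comp χ D b = algebraMap ℂ A ((ord G : ℂ))⁻¹ *
      ∑ g : G, algebraMap ℂ A ((χ g)⁻¹ : ℂˣ) * (g • D (g⁻¹ • b)) := rfl

lemma comp_eig (χ : G →* ℂˣ) (D : Derivation ℂ A A) : DEig χ (comp χ D) := by
  intro h b
  rw [comp_apply, comp_apply, smul_mul', smul_const, Finset.smul_sum, mul_left_comm]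
  congr 1
  rw [Finset.mul_sum]
  refine Fintype.sum_equiv (Equiv.mulLeft h) _ _ fun g => ?_
  rw [smul_mul', smul_const, smul_smul, Equiv.coe_mulLeft, ← mul_assoc, ← map_mul,
    smul_smul (h * g)⁻¹ h b, show (h * g)⁻¹ * h = g⁻¹ by simp [mul_comm]]
  congr 2
  simp only [map_mul, mul_inv, Units.val_mul, Units.val_inv_eq_inv_val]
  field_simp

lemma deriv_sum_apply {ι : Type*} (t : Finset ι) (D : ι → Derivation ℂ A A) (b : A) :
    (∑ i ∈ t, D i) b = ∑ i ∈ t, D i b := by
  classical
  induction t using Finset.induction_on with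
  | empty => simp
  | insert i t hi ih => simp [Finset.sum_insert hi, ih]

lemma sum_comp (D : Derivation ℂ A A) : ∑ χ : G →* ℂˣ, comp χ D = D := by
  classical
  refine Derivation.ext fun b => ?_
  rw [deriv_sum_apply]
  simp only [comp_apply]
  have h : ∀ g : G, ∑ χ : G →* ℂˣ, algebraMap ℂ A ((χ g)⁻¹ : ℂˣ)
      = if g = 1 then algebraMap ℂ A (ord G : ℂ) else 0 := by
    intro g
    rw [← map_sum]
    split_ifs with hg
    · have := CommGroup.card_monoidHom_of_hasEnoughRootsOfUnity G ℂ
      simp only [Nat.card_eq_fintype_card] at this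
      simp [hg, this]
    · have : g⁻¹ ≠ 1 := by simpa using hg
      rw [show (∑ χ : G →* ℂˣ, (((χ g)⁻¹ : ℂˣ) : ℂ)) = 0 by simpa using sum_char g⁻¹ this,
        map_zero]
  rw [← Finset.mul_sum, Finset.sum_comm]
  simp only [← Finset.sum_mul, h, ite_mul, zero_mul, Finset.sum_ite_eq', Finset.mem_univ, if_true,
    one_smul, inv_one]
  rw [← mul_assoc, ← map_mul, inv_mul_cancel₀ natCast_ord_ne, map_one, one_mul]

/-- Values on the coordinates. -/
def coord : Derivation ℂ A A →ₗ[A] (Fin n → A) where
  toFun D k := D (up A (X k))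
  map_add' _ _ := rfl
  map_smul' _ _ := rfl

lemma coord_apply (D : Derivation ℂ A A) (k : Fin n) :
    coord (n := n) D k = D (up A (X k)) := rfl

lemma up_expand (D : Derivation ℂ A A) (p : Pol n) :
    D (up A p) = ∑ k, up A (pderiv k p) * D (up A (X k)) := by
  classical
  induction p using MvPolynomial.induction_on with
  | C a => simp [up_C]
  | add p q hp hq => simp [hp, hq, Finset.sum_add_distrib, add_mul]
  | mul_X p l hp =>
    rw [map_mul, Derivation.leibniz, hp]
    simp only [pderiv_mul, pderiv_X, Pi.single_apply, smul_eq_mul, map_add, map_mul, add_mul,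
      Finset.sum_add_distrib, Finset.mul_sum, apply_ite (up A), map_one, map_zero, ite_mul,
      mul_ite, mul_one, mul_zero, zero_mul, Finset.sum_ite_eq, Finset.mem_univ, if_true]
    rw [add_comm]
    congr 1
    exact Finset.sum_congr rfl fun k _ => by ring

lemma coord_inj (G : Type*) [CommGroup G] [Fintype G] [MulSemiringAction G A]
    [SMulCommClass G (Pol n) A] [Algebra.IsInvariant (Pol n) A G] [SMulCommClass G ℂ A] :
    Function.Injective (coord (n := n) (A := A)) := by
  intro D D' h
  refine field_ext (n := n) G fun p => ?_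
  rw [up_expand, up_expand D']
  simp only [← coord_apply, h]

/-- A frame of eigen vector fields adapted to the point. -/
structure Frame (A : Type*) [CommRing A] [Algebra ℂ A] [Algebra (Pol n) A] [IsDomain A]
    [IsScalarTower ℂ (Pol n) A] [FaithfulSMul (Pol n) A] [IsIntegrallyClosed A] (G : Type*)
    [CommGroup G] [Fintype G] [MulSemiringAction G A] [SMulCommClass G (Pol n) A]
    [Algebra.IsInvariant (Pol n) A G] [SMulCommClass G ℂ A] (c : Fin n → ℂ) where
  fields : Fin n → Derivation ℂ A A
  chars : Fin n → Occ A G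
  mat : Matrix (Fin n) (Fin n) (Pol n)
  value : ∀ i k, fields i (up A (X k)) = up A (mat i k) * gen (n := n) (chars i)
  det_ne : mat.det ≠ 0
  spans : ∀ D : Derivation ℂ A A, ∃ s : Pol n,
    eval c s ≠ 0 ∧ up A s • D ∈ Submodule.span A (Set.range fields)

variable [IsNoetherianRing A]

theorem exists_frame [Module.Projective A (Derivation ℂ A A)] (m : Ideal A) [m.IsPrime]
    (c : Fin n → ℂ) (hc : ∀ p : Pol n, up A p ∈ m ↔ eval c p = 0) :
    Nonempty (Frame (n := n) A G c) := by
  classical
  have hinj := coord_inj (n := n) (A := A) G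
  have : Module.Finite A (Derivation ℂ A A) := Module.Finite.of_injective (coord (n := n)) hinj
  let S := m.primeCompl
  let R := Localization.AtPrime m
  let MR := LocalizedModule S (Derivation ℂ A A)
  let f : (Derivation ℂ A A) →ₗ[A] MR := LocalizedModule.mkLinearMap S (Derivation ℂ A A)
  have : Module.Finite R MR := Module.Finite.of_isLocalizedModule S (Rₚ := R) f
  have : Module.Flat R MR := Module.Flat.of_isLocalizedModule R S f
  have : Module.FinitePresentation R MR := Module.finitePresentation_of_finite R MR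
  let ι := {D : (Derivation ℂ A A) // ∃ χ : G →* ℂˣ, DEig χ D}
  have hspan : Submodule.span R (Set.range fun D : ι => f D.1) = ⊤ := by
    rw [eq_top_iff]
    intro y _
    obtain ⟨⟨D, s⟩, rfl⟩ := IsLocalizedModule.mk'_surjective S f y
    simp only [Function.uncurry]
    have hf : f D ∈ Submodule.span R (Set.range fun D : ι => f D.1) := by
      rw [← sum_comp D (G := G), map_sum]
      exact Submodule.sum_mem _ fun χ _ =>
        Submodule.subset_span ⟨⟨comp χ D, χ, comp_eig χ D⟩, rfl⟩
    have : IsLocalizedModule.mk' f D s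
        = IsLocalization.mk' R 1 s • f D := by
      rw [IsLocalizedModule.mk'_eq_iff, Submonoid.smul_def, ← smul_assoc, Algebra.smul_def,
        IsLocalization.mul_mk'_eq_mk'_of_mul, mul_one, IsLocalization.mk'_self', one_smul]
    rw [this]
    exact Submodule.smul_mem _ _ hf
  obtain ⟨κ, e, b, hb⟩ := Module.exists_basis_of_span_of_flat _ hspan
  have : Finite κ := Module.Finite.finite_basis b
  let _ : Fintype κ := Fintype.ofFinite κ
  let d : κ → (Derivation ℂ A A) := fun j => (e j).1
  have hsp : ∀ D : (Derivation ℂ A A), ∃ s ∈ S, s • D ∈ Submodule.span A (Set.range d) := by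
    intro D
    have h1 : Submodule.span R (Set.range b)
        ≤ (Submodule.span A (Set.range d)).localized' R S f := by
      rw [Submodule.span_le]
      rintro _ ⟨j, rfl⟩
      exact ⟨d j, Submodule.subset_span ⟨j, rfl⟩, 1, by rw [IsLocalizedModule.mk'_one, hb]⟩
    obtain ⟨x, hx, s, hs⟩ := h1 (show f D ∈ Submodule.span R (Set.range b) by
      rw [b.span_eq]; trivial)
    rw [IsLocalizedModule.mk'_eq_iff, Submonoid.smul_def, ← map_smul,
      IsLocalizedModule.eq_iff_exists S f] at hs
    obtain ⟨u, hu⟩ := hs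
    refine ⟨(u : A) * s, S.mul_mem u.2 s.2, ?_⟩
    rw [mul_smul]
    have hu' : (u : A) • x = (u : A) • ((s : A) • D) := hu
    rw [← hu']
    exact Submodule.smul_mem _ _ hx
  have hdind : LinearIndependent A d := by
    refine LinearIndependent.of_comp f ?_
    have := b.linearIndependent.restrict_scalars (R := A) (by
      intro x y h
      simp only [← Algebra.algebraMap_eq_smul_one] at h
      exact IsLocalization.injective R m.primeCompl_le_nonZeroDivisors h)
    rw [show (f ∘ d) = ⇑b from funext fun j => (hb j).symm]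
    exact this
  have hle : Fintype.card κ ≤ n := by
    have := (hdind.map' coord (LinearMap.ker_eq_bot.2 hinj)).fintype_card_le_finrank
    simpa using this
  let C' : Pol n := ∏ χ : Occ A G, pw χ
  have hE : ∀ k : Fin n, ∃ E : (Derivation ℂ A A), coord (n := n) E = Pi.single k (up A C') := by
    intro k
    have hq : ∀ χ : Occ A G, ∃ h, C' = pw χ * h := fun χ =>
      Finset.dvd_prod_of_mem (fun χ : Occ A G => pw (n := n) χ) (Finset.mem_univ χ)
    choose h hh using hq
    obtain ⟨E, hE, -⟩ := exists_field (n := n) (A := A) (G := G) (pderiv k) (up A C')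
      (fun χ => algebraMap ℂ A ((ord G : ℂ))⁻¹ * up A (h χ * pderiv k (pw χ)) * gen (n := n) χ)
      (fun χ => by
        have hN : (ord G : A) * algebraMap ℂ A ((ord G : ℂ))⁻¹ = 1 := by
          rw [← map_natCast (algebraMap ℂ A), ← map_mul, mul_inv_cancel₀ natCast_ord_ne, map_one]
        rw [hh χ, map_mul, map_mul]
        linear_combination (up A (pw (n := n) χ) * up A (h χ) * up A (pderiv k (pw (n := n) χ))
          * gen (n := n) χ) * hN)
    refine ⟨E, funext fun l => ?_⟩
    rw [coord_apply, hE, pderiv_X, Pi.single_apply, Pi.single_apply]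
    rcases eq_or_ne l k with rfl | hlk
    · simp
    · simp [hlk, hlk.symm]
  choose E hE using hE
  choose s hsS hsmem using fun k => hsp (E k)
  have hge : n ≤ Fintype.card κ := by
    let a0 := ∏ k, s k
    have ha0 : a0 ≠ 0 := by
      intro h0
      exact m.primeCompl.prod_mem (t := Finset.univ) (fun k _ => hsS k) (by
        change a0 ∈ m; rw [h0]; exact zero_mem m)
    have hC : up A C' ≠ 0 := up_ne (Finset.prod_ne_zero_iff.2 fun χ _ => pw_ne χ)
    have hli : LinearIndependent A (fun k => a0 • E k) := by
      refine LinearIndependent.of_comp (coord (n := n)) ?_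
      rw [Fintype.linearIndependent_iff]
      intro r hr k
      have := congrFun hr k
      simp [hE, Pi.single_apply, Finset.sum_apply, ha0, hC] at this
      exact this
    have hsub : Set.range (fun k => a0 • E k) ⊆ Submodule.span A (Set.range d) := by
      rintro _ ⟨k, rfl⟩
      simp only [a0, SetLike.mem_coe]
      rw [← Finset.prod_erase_mul _ _ (Finset.mem_univ k), mul_smul]
      exact Submodule.smul_mem _ _ (hsmem k)
    have := linearIndependent_le_span' _ hli (Set.range d) hsub
    simp only [Cardinal.mk_fintype, Fintype.card_fin, Nat.cast_le] at this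
    exact this.trans (Fintype.card_range_le d)
  let q : Fin n ≃ κ := (Fintype.equivFinOfCardEq (le_antisymm hle hge)).symm
  let v : Fin n → (Derivation ℂ A A) := fun i => d (q i)
  choose χ₀ hχ₀ using fun i => (e (q i)).2
  have hvind : LinearIndependent A v := hdind.comp q q.injective
  have hocc : ∀ i, ∃ k : Fin n, v i (up A (X k : Pol n)) ≠ 0 := by
    intro i
    by_contra h
    push Not at h
    exact hvind.ne_zero i (hinj (funext fun k => by simp [coord_apply, h k]))
  choose k₀ hk₀ using hocc
  let χ : Fin n → Occ A G := fun i =>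
    ⟨χ₀ i, v i (up A (X (k₀ i) : Pol n)), hk₀ i, (hχ₀ i).apply_up (X (k₀ i) : Pol n)⟩
  have hval : ∀ i k, ∃ p : Pol n, v i (up A (X k : Pol n)) = up A p * gen (n := n) (χ i) := fun i k =>
    (gen_spec (n := n) (χ i)).2.2.2.2 _ ((hχ₀ i).apply_up (X k))
  choose a ha using hval
  have hr : Set.range v = Set.range d := q.surjective.range_comp d
  refine ⟨⟨v, χ, Matrix.of a, ha, ?_, ?_⟩⟩
  · intro h0
    obtain ⟨w, hw, hw0⟩ := Matrix.exists_vecMul_eq_zero_iff.2 h0
    obtain ⟨i0, hi0⟩ := Function.ne_iff.1 hw
    let P' : Fin n → A := fun i => ∏ j ∈ Finset.univ.erase i, gen (n := n) (χ j)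
    have := Fintype.linearIndependent_iff.1 hvind (fun i => up A (w i) * P' i) (hinj (by
      funext k
      have hk := congrArg (up A) (congrFun hw0 k)
      simp only [Matrix.vecMul, dotProduct, Matrix.of_apply, map_sum, map_mul, Pi.zero_apply,
        map_zero] at hk
      rw [map_sum, map_zero, Finset.sum_apply]
      simp only [map_smul, Pi.smul_apply, coord_apply, Derivation.smul_apply, smul_eq_mul, ha]
      have hP : ∀ i, P' i * gen (n := n) (χ i) = ∏ j, gen (n := n) (χ j) := fun i =>
        Finset.prod_erase_mul _ _ (Finset.mem_univ i)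
      calc _ = ∑ i, up A (w i) * up A (a i k) * ∏ j, gen (n := n) (χ j) :=
            Finset.sum_congr rfl fun i _ => by rw [← hP i]; ring
        _ = 0 := by rw [← Finset.sum_mul, hk, zero_mul])) i0
    rcases mul_eq_zero.1 this with h | h
    · exact hi0 (up_inj (A := A) (by simpa using h))
    · obtain ⟨j, -, hj⟩ := Finset.prod_eq_zero_iff.1 h
      exact (gen_spec (n := n) (χ j)).2.1 hj
  · have heig : ∀ (ψ : G →* ℂˣ) (D : (Derivation ℂ A A)), DEig ψ D →
        ∃ s : Pol n, eval c s ≠ 0 ∧ up A s • D ∈ Submodule.span A (Set.range v) := by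
      intro ψ D hD
      let I : Ideal A :=
        (Submodule.span A (Set.range v)).comap (LinearMap.toSpanSingleton A (Derivation ℂ A A) D)
      have hI : ∀ a, a ∈ I ↔ a • D ∈ Submodule.span A (Set.range v) := fun a => Iff.rfl
      obtain ⟨a₀, ha₀, ha₀I⟩ := hsp D
      rw [← hr] at ha₀I
      have hstab : ∀ (g : G) (a : A), a ∈ I → g • a ∈ I := by
        intro g a haI
        obtain ⟨r, hr'⟩ := (Submodule.mem_span_range_iff_exists_fun A).1 ((hI a).1 haI)
        refine (hI _).2 ((Submodule.mem_span_range_iff_exists_fun A).2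
          ⟨fun i => algebraMap ℂ A ((ψ g)⁻¹ : ℂˣ) * algebraMap ℂ A (χ₀ i g : ℂ) * (g • r i), ?_⟩)
        refine Derivation.ext fun b => ?_
        have h1 := congrArg (fun x : (Derivation ℂ A A) => g • x (g⁻¹ • b)) hr'
        simp only [deriv_sum_apply, Derivation.smul_apply, smul_eq_mul,
          Finset.smul_sum, smul_mul', hD g, fun i => (hχ₀ i) g, smul_inv_smul] at h1 ⊢
        have hu : algebraMap ℂ A ((ψ g)⁻¹ : ℂˣ) * algebraMap ℂ A (ψ g : ℂ) = 1 := by
          rw [← map_mul, Units.inv_mul, map_one]
        calc _ = algebraMap ℂ A ((ψ g)⁻¹ : ℂˣ) *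
              ∑ i, (g • r i) * (g • v i (g⁻¹ • b)) := by
                rw [Finset.mul_sum]
                refine Finset.sum_congr rfl fun i _ => ?_
                rw [show g • v i (g⁻¹ • b) = algebraMap ℂ A (χ₀ i g : ℂ) * v i b by
                  rw [hχ₀ i g, smul_inv_smul]]
                ring
          _ = _ := by
                rw [show (∑ i, (g • r i) * (g • v i (g⁻¹ • b)))
                    = (g • a) * (algebraMap ℂ A (ψ g : ℂ) * D b) by
                  rw [← h1]]
                linear_combination (g • a) * D b * hu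
      have hav : ∃ a ∈ I, ∀ g : G, g • a ∉ m := by
        by_contra hcon
        push Not at hcon
        have hsub : (I : Set A) ⊆ ⋃ g ∈ (↑(Finset.univ : Finset G) : Set G),
            ↑(m.comap (MulSemiringAction.toRingHom G A g)) := by
          intro a haI
          obtain ⟨g, hg⟩ := hcon a haI
          exact Set.mem_biUnion (Finset.mem_univ g) hg
        obtain ⟨g, -, hg⟩ :=
          (Ideal.subset_union_prime 1 1 fun g _ _ _ => Ideal.comap_isPrime _ _).1 hsub
        have := hg (hstab g⁻¹ a₀ ((hI a₀).2 ha₀I))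
        simp at this
        exact ha₀ this
      obtain ⟨a, haI, ham⟩ := hav
      obtain ⟨p, hp⟩ := Algebra.IsInvariant.isInvariant (A := Pol n) (G := G) (∏ g : G, g • a)
        (Finset.smul_prod_perm a)
      refine ⟨p, fun h0 => ?_, (hI _).1 ?_⟩
      · have := (hc p).2 h0
        rw [show up A p = ∏ g : G, g • a from hp, Ideal.IsPrime.prod_mem_iff] at this
        obtain ⟨g, -, hg⟩ := this
        exact ham g hg
      · rw [show up A p = ∏ g : G, g • a from hp, ← Finset.prod_erase_mul _ _ (Finset.mem_univ 1),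
          one_smul]
        exact Ideal.mul_mem_left _ _ haI
    intro D
    choose s hs0 hsD using fun ψ : G →* ℂˣ => heig ψ (comp ψ D) (comp_eig ψ D)
    refine ⟨∏ ψ, s ψ, by simp [map_prod, Finset.prod_ne_zero_iff, hs0], ?_⟩
    conv => arg 2; arg 2; rw [← sum_comp D (G := G)]
    rw [Finset.smul_sum]
    refine Submodule.sum_mem _ fun ψ _ => ?_
    rw [← Finset.prod_erase_mul _ _ (Finset.mem_univ ψ), map_mul, mul_smul]
    exact Submodule.smul_mem _ _ (hsD ψ)

end

end Vale.Agent.P266
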