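import Vale.Agent.P266.Frame

/-!
Regularity of an abelian cover of affine space with projective module of vector fields.
-/

namespace Vale.Agent.P266

open MvPolynomial

noncomputable section

universe uA

variable {n : ℕ} {A : Type uA} [CommRing A] [IsDomain A] [Algebra ℂ A] [Algebra (Pol n) A]
  [IsScalarTower ℂ (Pol n) A] [FaithfulSMul (Pol n) A] [IsIntegrallyClosed A]
  {G : Type*} [CommGroup G] [Fintype G] [MulSemiringAction G A] [SMulCommClass G (Pol n) A]
  [Algebra.IsInvariant (Pol n) A G] [SMulCommClass G ℂ A]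

set_option linter.unusedSectionVars false

lemma not_all_pderiv_dvd {c : Fin n → ℂ} {π : Pol n} (hπ : Prime π) (hc : eval c π = 0) :
    ∃ k, ¬ π ∣ pderiv k π := by
  classical
  by_contra h
  push Not at h
  have hfld : ∀ (j : Fin n) g, fld (1 : Matrix (Fin n) (Fin n) (Pol n)) j g = pderiv j g := by
    intro j g
    rw [deriv_expand (fld (1 : Matrix (Fin n) (Fin n) (Pol n)) j) g]
    simp [fld, mkDerivation_X, Matrix.one_apply]
  have hstab : ∀ j, ∀ f ∈ Ideal.span {π},
      fld (1 : Matrix (Fin n) (Fin n) (Pol n)) j f ∈ Ideal.span {π} := by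
    intro j f hf
    obtain ⟨b, rfl⟩ := Ideal.mem_span_singleton.1 hf
    obtain ⟨d, hd⟩ := h j
    rw [hfld, Derivation.leibniz, hd]
    refine Ideal.mem_span_singleton.2 ⟨pderiv j b + b * d, ?_⟩
    simp only [smul_eq_mul]; ring
  obtain ⟨t, ht, htf⟩ := stable_le (a := (1 : Matrix (Fin n) (Fin n) (Pol n))) (by simp)
    (Q := Ideal.span {π}) (K := ⊥) (fld 1) (euler c) 1 (by simp) 0
    (fun j => ∑ k, euler c (X k) * (1 : Matrix (Fin n) (Fin n) (Pol n)).adjugate k j)
    (euler_coeff_mem c 1) (Submodule.zero_mem _)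
    (fun g => by rw [← fld_expand 1 (euler c) g]; simp)
    (fun j f hf => by simp_all) hstab
    (by rw [Ideal.span_singleton_le_iff_mem]; exact mem_pt.2 hc)
    (Ideal.mem_span_singleton_self π)
  rcases mul_eq_zero.1 (Ideal.mem_bot.1 htf) with h0 | h0
  · simp [h0] at ht
  · exact hπ.ne_zero h0

lemma exists_prime_root {c : Fin n → ℂ} {p : Pol n} (hp : p ≠ 0) (h : eval c p = 0) :
    ∃ π, Prime π ∧ eval c π = 0 ∧ π ∣ p := by
  induction p using UniqueFactorizationMonoid.induction_on_prime with
  | h₁ => exact absurd rfl hp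
  | h₂ x hx => exact absurd h ((IsUnit.map (eval c) hx).ne_zero)
  | h₃ a q ha hq ih =>
    simp only [map_mul, mul_eq_zero] at h
    rcases h with h | h
    · exact ⟨q, hq, h, dvd_mul_right _ _⟩
    · obtain ⟨π, h1, h2, h3⟩ := ih (right_ne_zero_of_mul hp) h
      exact ⟨π, h1, h2, h3.mul_left q⟩

lemma mult_prod {π : Pol n} (hπ : Prime π) {ι : Type*} (s : Finset ι) (f : ι → Pol n)
    (h : ∀ i ∈ s, f i ≠ 0) : multiplicity π (∏ i ∈ s, f i) = ∑ i ∈ s, multiplicity π (f i) := by
  classical
  induction s using Finset.induction_on with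
  | empty => simpa using multiplicity_eq_zero.2 (fun h => hπ.not_isUnit (isUnit_of_dvd_one h))
  | insert i t hi ih =>
    rw [Finset.prod_insert hi, Finset.sum_insert hi, mult_mul hπ (h i (Finset.mem_insert_self i t))
      (Finset.prod_ne_zero_iff.2 fun j hj => h j (Finset.mem_insert_of_mem hj)),
      ih fun j hj => h j (Finset.mem_insert_of_mem hj)]

lemma natCast_mul_inv : (ord G : A) * algebraMap ℂ A ((ord G : ℂ))⁻¹ = 1 := by
  rw [← map_natCast (algebraMap ℂ A), ← map_mul, mul_inv_cancel₀ natCast_ord_ne, map_one]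

lemma apply_up_fld {c : Fin n → ℂ} (F : Frame (n := n) A G c) (i : Fin n) (p : Pol n) :
    F.fields i (up A p) = up A (fld F.mat i p) * gen (n := n) (F.chars i) := by
  rw [up_expand, deriv_expand (fld F.mat i) p, map_sum, Finset.sum_mul]
  refine Finset.sum_congr rfl fun k _ => ?_
  simp [F.value, fld, mkDerivation_X]
  ring

lemma expo_oOne {π : Pol n} (hπ : Prime π) : expo π (oOne : Occ A G) = 0 := by
  obtain ⟨p, hp⟩ := (gen_spec (n := n) (oOne : Occ A G)).2.2.2.2 1 eig_one
  have h1 : p ^ ord G * pw (n := n) (oOne : Occ A G) = 1 := by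
    apply up_inj (A := A)
    rw [map_mul, map_pow, ← (gen_spec (n := n) (oOne : Occ A G)).2.2.1, ← mul_pow, ← hp, one_pow,
      map_one]
  exact multiplicity_eq_zero.2 fun h =>
    hπ.not_isUnit (isUnit_of_dvd_one (h1 ▸ h.mul_left (p ^ ord G)))

lemma expo_mul {π : Pol n} (hπ : Prime π) (χ ψ : Occ A G) : ∃ p : Pol n, p ≠ 0 ∧
    gen (n := n) χ * gen (n := n) ψ = up A p * gen (n := n) (oMul χ ψ) ∧
    expo π χ + expo π ψ = ord G * multiplicity π p + expo π (oMul χ ψ) := by
  obtain ⟨p, hp, h1, h2⟩ := gen_mul (n := n) χ ψ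
  exact ⟨p, hp, h1, expo_add hπ χ ψ hp h2⟩

/-- The exponents of the frame are small at every prime through the point. -/
lemma det_bound {c : Fin n → ℂ} (F : Frame (n := n) A G c) {π : Pol n} (hπ : Prime π)
    (hc : eval c π = 0) : ∃ top : Occ A G, (∀ χ : Occ A G, expo π χ ≤ expo π top) ∧
      (∑ i, expo π (F.chars i)) + ord G * multiplicity π F.mat.det ≤ expo π top := by
  classical
  obtain ⟨top, -, htop⟩ :=
    Finset.exists_max_image Finset.univ (fun χ : Occ A G => expo π χ) ⟨oOne, Finset.mem_univ _⟩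
  refine ⟨top, fun χ => htop χ (Finset.mem_univ _), ?_⟩
  obtain ⟨k0, hk0⟩ := not_all_pderiv_dvd hπ hc
  have hCne : (∏ χ : Occ A G, pw (n := n) χ) ≠ 0 := Finset.prod_ne_zero_iff.2 fun χ _ => pw_ne χ
  obtain ⟨h, hh, hnh⟩ := (FiniteMultiplicity.of_prime_left hπ hCne).exists_eq_pow_mul_and_not_dvd
  have hfac : ∀ χ : Occ A G, ∃ h' h'', pw (n := n) χ = π ^ expo π χ * h' ∧ h = h' * h'' := by
    intro χ
    obtain ⟨h', hh', hn'⟩ :=
      (FiniteMultiplicity.of_prime_left hπ (pw_ne (n := n) χ)).exists_eq_pow_mul_and_not_dvd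
    have h1 : h' ∣ π ^ multiplicity π (∏ χ : Occ A G, pw (n := n) χ) * h := by
      rw [← hh]
      exact (Dvd.intro_left _ hh'.symm).trans
        (Finset.dvd_prod_of_mem (fun χ : Occ A G => pw (n := n) χ) (Finset.mem_univ χ))
    obtain ⟨h'', hh''⟩ :=
      ((hπ.irreducible.isRelPrime_iff_not_dvd.2 hn').pow_left.symm.dvd_of_dvd_mul_left h1)
    exact ⟨h', h'', hh', hh''⟩
  choose hA hB hAe hBe using hfac
  have hN := natCast_mul_inv (A := A) (G := G)
  have fA : ∃ w : Derivation ℂ A A,
      ∀ p, w (up A p) = up A (h * pderiv k0 p) * gen (n := n) top := by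
    have hstep : ∀ χ : Occ A G, ∃ Q : A, (ord G : A) * up A (pw (n := n) χ) * Q
        = up A (h * pderiv k0 (pw χ)) * gen (n := n) top * gen (n := n) χ := by
      intro χ
      obtain ⟨p, hp, hmul, hexp⟩ := expo_mul hπ top χ
      rcases Nat.eq_zero_or_pos (expo π χ) with h0 | hpos
      · refine ⟨algebraMap ℂ A ((ord G : ℂ))⁻¹ * up A (hB χ * pderiv k0 (hA χ)) *
          gen (n := n) top * gen (n := n) χ, ?_⟩
        rw [hAe χ, hBe χ, h0]
        simp only [pow_zero, one_mul, map_mul]
        linear_combination (up A (hA χ) * up A (hB χ) * up A (pderiv k0 (hA χ))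
          * gen (n := n) top * gen (n := n) χ) * hN
      · obtain ⟨p', hp'⟩ : π ∣ p := by
          rw [← mult_pos_iff hπ hp]
          by_contra hm
          push Not at hm
          have := htop (oMul top χ) (Finset.mem_univ _)
          simp only [Nat.le_zero.1 hm, mul_zero, zero_add] at hexp
          omega
        refine ⟨algebraMap ℂ A ((ord G : ℂ))⁻¹ * up A (hB χ * p' *
          ((expo π χ : Pol n) * pderiv k0 π * hA χ + π * pderiv k0 (hA χ))) *
          gen (n := n) (oMul top χ), ?_⟩
        have hd : pderiv k0 (pw (n := n) χ) = π ^ (expo π χ - 1) *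
            ((expo π χ : Pol n) * pderiv k0 π * hA χ + π * pderiv k0 (hA χ)) := by
          conv_lhs => rw [hAe χ]
          rw [Derivation.leibniz, Derivation.leibniz_pow]
          simp only [smul_eq_mul, nsmul_eq_mul]
          conv_lhs => arg 1; rw [← Nat.sub_add_cancel hpos]
          ring
        have hpe : up A π ^ expo π χ = up A π ^ (expo π χ - 1) * up A π := by
          rw [← pow_succ, Nat.sub_add_cancel hpos]
        rw [hd, hAe χ, hBe χ, mul_assoc (up A (hA χ * hB χ * _)), hmul, hp']
        simp only [map_mul, map_add, map_pow, map_natCast]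
        rw [hpe]
        linear_combination (up A π ^ (expo π χ - 1) * up A π * up A (hA χ) * up A (hB χ) * up A p' *
          ((expo π χ : A) * up A (pderiv k0 π) * up A (hA χ) + up A π * up A (pderiv k0 (hA χ)))
          * gen (n := n) (oMul top χ)) * hN
    choose Q hQ using hstep
    obtain ⟨w, hw, -⟩ := exists_field (n := n) (h • pderiv k0) (gen (n := n) top) Q
      (fun χ => by simpa using hQ χ)
    exact ⟨w, fun p => by simpa using hw p⟩
  have fB : ∀ j, ∃ w : Derivation ℂ A A, ∀ p, w (up A p) =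
      up A (h * (pderiv k0 π * pderiv j p - pderiv j π * pderiv k0 p)) := by
    intro j
    let T : Derivation ℂ (Pol n) (Pol n) :=
      pderiv k0 π • pderiv j - pderiv j π • pderiv k0
    have hT : ∀ p, T p = pderiv k0 π * pderiv j p - pderiv j π * pderiv k0 p := fun p => by simp [T]
    have hTπ : T π = 0 := by rw [hT]; ring
    obtain ⟨w, hw, -⟩ := exists_field (n := n) (G := G) (h • T) (1 : A)
      (fun χ => algebraMap ℂ A ((ord G : ℂ))⁻¹ * up A (hB χ * T (hA χ)) * gen (n := n) χ)
      (fun χ => by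
        have hd : T (pw (n := n) χ) = π ^ expo π χ * T (hA χ) := by
          conv_lhs => rw [hAe χ]
          rw [Derivation.leibniz, Derivation.leibniz_pow, hTπ]
          simp
        simp only [Derivation.smul_apply, smul_eq_mul, hd, mul_one]
        rw [hAe χ, hBe χ]
        simp only [map_mul, map_pow]
        linear_combination (up A π ^ expo π χ * up A (hA χ) * up A (hB χ) * up A (T (hA χ))
          * gen (n := n) χ) * hN)
    exact ⟨w, fun p => by simpa [hT] using hw p⟩
  obtain ⟨wA, hwA⟩ := fA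
  choose wB hwB using fB
  let W : Matrix (Fin n) (Fin n) (Pol n) := Matrix.of fun j k =>
    if j = k0 then (if k = k0 then h else 0)
    else h * (pderiv k0 π * (if k = j then 1 else 0) - pderiv j π * (if k = k0 then 1 else 0))
  let w : Fin n → Derivation ℂ A A := fun j => if j = k0 then wA else wB j
  let fs : Fin n → A := fun j => if j = k0 then gen (n := n) top else 1
  have hw : ∀ j k, w j (up A (X k)) = fs j * up A (W j k) := by
    intro j k
    by_cases hj : j = k0
    · simp only [w, fs, W, hj, if_true, Matrix.of_apply, hwA, pderiv_X, Pi.single_apply,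
        mul_ite, mul_one, mul_zero]
      rw [mul_comm]
    · simp only [w, fs, W, hj, if_false, Matrix.of_apply, hwB, pderiv_X, Pi.single_apply, one_mul]
  have hdetW : W.det = ∏ j, W j j := by
    rw [Matrix.det_apply, Finset.sum_eq_single 1]
    · simp
    · intro σ _ hσ
      have hz : ∃ i, W (σ i) i = 0 := by
        by_contra hz
        push Not at hz
        apply hσ
        have h1 : ∀ i, i ≠ k0 → σ i = i := by
          intro i hi
          by_contra hne
          apply hz i
          by_cases hj : σ i = k0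
          · simp [W, hj, hi]
          · simp [W, hj, hi, Ne.symm hne]
        ext i
        by_cases hi : i = k0
        · subst hi
          by_contra hne
          have := h1 (σ i) (by simpa [Fin.ext_iff] using hne)
          exact hne (by rw [σ.injective this]; rfl)
        · simp [h1 i hi]
      obtain ⟨i, hi⟩ := hz
      rw [show (∏ j, W (σ j) j) = 0 from Finset.prod_eq_zero (Finset.mem_univ i) hi]
      exact smul_zero _
    · simp
  have hWπ : ¬ π ∣ W.det := by
    rw [hdetW, hπ.dvd_finsetProd_iff]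
    rintro ⟨j, -, hj⟩
    by_cases hj0 : j = k0
    · simp [W, hj0] at hj; exact hnh hj
    · simp [W, hj0] at hj
      rcases hπ.dvd_or_dvd hj with h1 | h1
      · exact hnh h1
      · exact hk0 h1
  choose s hs0 hsmem using fun j => F.spans (w j)
  choose B hB' using fun j => (Submodule.mem_span_range_iff_exists_fun A).1 (hsmem j)
  have hmat : (Matrix.of fun j k => (up A (s j) * fs j) * up A (W j k))
      = Matrix.of B * Matrix.of fun i k => gen (n := n) (F.chars i) * up A (F.mat i k) := by
    refine Matrix.ext fun j k => ?_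
    have := congrArg (fun D : Derivation ℂ A A => D (up A (X k))) (hB' j)
    simp only [deriv_sum_apply, Derivation.smul_apply, smul_eq_mul, hw, F.value] at this
    simp only [Matrix.of_apply, Matrix.mul_apply]
    rw [mul_assoc, ← this]
    exact Finset.sum_congr rfl fun i _ => by ring
  have hdet := congrArg Matrix.det hmat
  rw [Matrix.det_mul] at hdet
  have h1 := Matrix.det_mul_column (fun j => up A (s j) * fs j) (W.map (up A))
  have h2 := Matrix.det_mul_column (fun i => gen (n := n) (F.chars i)) (F.mat.map (up A))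
  simp only [Matrix.map_apply] at h1 h2
  rw [h1, h2, ← RingHom.mapMatrix_apply (up A) W, ← RingHom.map_det,
    ← RingHom.mapMatrix_apply (up A) F.mat, ← RingHom.map_det, Finset.prod_mul_distrib,
    Finset.prod_ite_eq' Finset.univ k0 (fun _ => gen (n := n) top), if_pos (Finset.mem_univ _),
    ← map_prod] at hdet
  have hpw : (up A ((∏ i, pw (n := n) (F.chars i)) * F.mat.det ^ ord G))
      = ((∏ i, gen (n := n) (F.chars i)) * up A F.mat.det) ^ ord G := by
    simp only [map_mul, map_prod, map_pow, mul_pow, ← Finset.prod_pow,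
      ← (gen_spec (n := n) (F.chars _)).2.2.1]
  have hX0 : (∏ i, pw (n := n) (F.chars i)) * F.mat.det ^ ord G ≠ 0 :=
    mul_ne_zero (Finset.prod_ne_zero_iff.2 fun i _ => pw_ne _) (pow_ne_zero _ F.det_ne)
  have hN2 : up A (((∏ j, s j) * W.det) ^ ord G * pw (n := n) top)
      = (Matrix.of B).det ^ ord G *
        up A ((∏ i, pw (n := n) (F.chars i)) * F.mat.det ^ ord G) := by
    rw [hpw, ← mul_pow, ← hdet]
    simp only [map_mul, map_pow, mul_pow, ← (gen_spec (n := n) top).2.2.1]
    ring
  obtain ⟨d, hd⟩ := Algebra.IsInvariant.isInvariant (A := Pol n) (G := G)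
    ((Matrix.of B).det ^ ord G) (fun g => by
      have := congrArg (fun x : A => g • x) hN2
      simp only [smul_mul', smul_up] at this
      exact (mul_right_cancel₀ (up_ne hX0) (hN2.symm.trans this)).symm)
  have hd' : ((∏ j, s j) * W.det) ^ ord G * pw (n := n) top
      = d * ((∏ i, pw (n := n) (F.chars i)) * F.mat.det ^ ord G) := by
    apply up_inj (A := A)
    rw [hN2, map_mul (up A) d, show up A d = (Matrix.of B).det ^ ord G from hd]
  have hnd : ¬ π ∣ (∏ j, s j) * W.det := by
    intro hdvd
    rcases hπ.dvd_or_dvd hdvd with h1 | h1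
    · obtain ⟨j, -, hj⟩ := hπ.exists_mem_finset_dvd h1
      obtain ⟨r, hr⟩ := hj
      exact hs0 j (by simp [hr, hc])
    · exact hWπ h1
  have hW0 : (∏ j, s j) * W.det ≠ 0 := fun h0 => hnd (h0 ▸ dvd_zero π)
  have hd0 : d ≠ 0 := by
    rintro rfl
    rw [zero_mul] at hd'
    exact mul_ne_zero (pow_ne_zero _ hW0) (pw_ne _) hd'
  have hm := congrArg (multiplicity π) hd'
  rw [mult_mul hπ (pow_ne_zero _ hW0) (pw_ne _), mult_pow hπ hW0,
    multiplicity_eq_zero.2 hnd, mult_mul hπ hd0 hX0,
    mult_mul hπ (Finset.prod_ne_zero_iff.2 fun i _ => pw_ne (n := n) (F.chars i))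
      (pow_ne_zero _ F.det_ne),
    mult_prod hπ _ _ (fun i _ => pw_ne (n := n) (F.chars i)), mult_pow hπ F.det_ne] at hm
  simp only [mul_zero, zero_add] at hm
  unfold expo
  omega

lemma eval_det_ne {c : Fin n → ℂ} (F : Frame (n := n) A G c) : eval c F.mat.det ≠ 0 := by
  intro h
  obtain ⟨π, hπ, hπc, hdvd⟩ := exists_prime_root F.det_ne h
  obtain ⟨top, -, hb⟩ := det_bound F hπ hπc
  have h1 := (mult_pos_iff hπ F.det_ne).2 hdvd
  have h2 := expo_lt hπ top
  have h3 : ord G ≤ ord G * multiplicity π F.mat.det := Nat.le_mul_of_pos_right _ h1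
  omega

/-- The shape of the frame at a ramified prime through the point. -/
lemma ramified_index {c : Fin n → ℂ} (F : Frame (n := n) A G c) {π : Pol n} (hπ : Prime π)
    (hc : eval c π = 0) {χ₀ : Occ A G} (hram : 0 < expo π χ₀) :
    ∃ i ε, 0 < ε ∧ expo π (F.chars i) + ε = ord G ∧
      (∀ χ : Occ A G, 0 < expo π χ → ε ≤ expo π χ) ∧
      (∀ j, j ≠ i → expo π (F.chars j) = 0 ∧ π ∣ fld F.mat j π) := by
  classical
  obtain ⟨top, htop, hb⟩ := det_bound F hπ hc
  obtain ⟨χe, hχe, hmin⟩ := Finset.exists_min_image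
    (Finset.univ.filter fun χ : Occ A G => 0 < expo π χ) (fun χ => expo π χ) ⟨χ₀, by simp [hram]⟩
  simp only [Finset.mem_filter, Finset.mem_univ, true_and] at hχe hmin
  have key : ∀ j, ¬ π ∣ fld F.mat j π →
      ∀ χ : Occ A G, 0 < expo π χ → ord G ≤ expo π (F.chars j) + expo π χ := by
    intro j hj χ hpos
    obtain ⟨p, hp, hmul, hexp⟩ := expo_mul hπ (F.chars j) χ
    obtain ⟨h', hh', hn'⟩ :=
      (FiniteMultiplicity.of_prime_left hπ (pw_ne (n := n) χ)).exists_eq_pow_mul_and_not_dvd
    let B := genBasis (n := n) (A := A) (G := G)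
    have hv : (ord G : A) * up A (pw (n := n) χ) * F.fields j (gen (n := n) χ)
        = up A (p * fld F.mat j (pw χ)) * gen (n := n) (oMul (F.chars j) χ) := by
      have hl := congrArg (F.fields j) (gen_spec (n := n) χ).2.2.1
      rw [Derivation.leibniz_pow, apply_up_fld] at hl
      have hN1 : gen (n := n) χ ^ ord G = gen (n := n) χ ^ (ord G - 1) * gen (n := n) χ := by
        rw [← pow_succ, Nat.sub_add_cancel ord_pos]
      rw [← (gen_spec (n := n) χ).2.2.1, hN1, map_mul]
      simp only [nsmul_eq_mul, smul_eq_mul] at hl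
      linear_combination gen (n := n) χ * hl + up A (fld F.mat j (pw (n := n) χ)) * hmul
    have hrepr := congrArg (fun x => B.repr x (oMul (F.chars j) χ)) hv
    rw [show (ord G : A) * up A (pw (n := n) χ) = up A ((ord G : Pol n) * pw χ) by simp] at hrepr
    simp only [← Algebra.smul_def, map_smul, Finsupp.smul_apply, smul_eq_mul] at hrepr
    rw [show B.repr (gen (n := n) (oMul (F.chars j) χ)) = Finsupp.single _ 1 by
      rw [← genBasis_apply, Module.Basis.repr_self]] at hrepr
    rw [Finsupp.single_eq_same, mul_one] at hrepr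
    have hd : fld F.mat j (pw (n := n) χ) = π ^ (expo π χ - 1) *
        ((expo π χ : Pol n) * fld F.mat j π * h' + π * fld F.mat j h') := by
      unfold expo at hpos ⊢
      conv_lhs => rw [hh']
      rw [Derivation.leibniz, Derivation.leibniz_pow]
      simp only [smul_eq_mul, nsmul_eq_mul]
      conv_lhs => arg 1; rw [← Nat.sub_add_cancel hpos]
      ring
    have hdvd : π ∣ p * ((expo π χ : Pol n) * fld F.mat j π * h' + π * fld F.mat j h') := by
      refine ⟨(ord G : Pol n) * h' * B.repr (F.fields j (gen (n := n) χ)) (oMul (F.chars j) χ),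
        mul_left_cancel₀ (pow_ne_zero (expo π χ - 1) hπ.ne_zero) ?_⟩
      rw [hd] at hrepr
      have he : pw (n := n) χ = π ^ (expo π χ - 1) * π * h' := by
        rw [← pow_succ, Nat.sub_add_cancel hpos]; exact hh'
      rw [he] at hrepr
      linear_combination -hrepr
    have hpdvd : π ∣ p := by
      rcases hπ.dvd_or_dvd hdvd with h1 | h1
      · exact h1
      · exfalso
        have h2 := dvd_sub h1 (dvd_mul_right π (fld F.mat j h'))
        rw [add_sub_cancel_right] at h2
        rcases hπ.dvd_or_dvd h2 with h3 | h3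
        · rcases hπ.dvd_or_dvd h3 with h4 | h4
          · refine hπ.not_isUnit (isUnit_of_dvd_unit h4 ?_)
            rw [← map_natCast (C : ℂ →+* Pol n)]
            exact (IsUnit.mk0 _ (Nat.cast_ne_zero.2 hpos.ne')).map C
          · exact hj h4
        · exact hn' h3
    have := Nat.le_mul_of_pos_right (ord G) ((mult_pos_iff hπ hp).2 hpdvd)
    omega
  have htopval : expo π top + expo π χe = ord G := by
    obtain ⟨p, hp, hmul, hexp⟩ := expo_mul hπ top χe
    have h1 := htop (oMul top χe)
    have h2 := expo_lt hπ top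
    have h3 := expo_lt hπ χe
    rcases Nat.lt_trichotomy (multiplicity π p) 1 with hm | hm | hm
    · simp only [Nat.lt_one_iff.1 hm, mul_zero, zero_add] at hexp
      omega
    · rw [hm, mul_one] at hexp
      rcases Nat.eq_zero_or_pos (expo π (oMul top χe)) with h4 | h4
      · omega
      · have := hmin _ h4
        omega
    · have := Nat.mul_le_mul_left (ord G) hm
      omega
  obtain ⟨i, hi⟩ : ∃ i, ¬ π ∣ fld F.mat i π := by
    by_contra h
    push Not at h
    obtain ⟨k, -⟩ := not_all_pderiv_dvd hπ hc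
    obtain ⟨d, hd⟩ := h k
    exact transversal (eval_det_ne F) k hπ hc (fun j _ => h j) (by simp [hd, hc])
  have hei := key i hi χe hχe
  have hle : expo π (F.chars i) ≤ ∑ l, expo π (F.chars l) :=
    Finset.single_le_sum (f := fun l => expo π (F.chars l)) (fun l _ => Nat.zero_le _)
      (Finset.mem_univ i)
  refine ⟨i, expo π χe, hχe, by omega, hmin, fun j hji => ?_⟩
  have h2 : expo π (F.chars i) + expo π (F.chars j) ≤ ∑ l, expo π (F.chars l) :=
    Finset.add_le_sum (f := fun l => expo π (F.chars l)) (fun l _ => Nat.zero_le _)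
      (Finset.mem_univ i) (Finset.mem_univ j) (Ne.symm hji)
  refine ⟨by omega, ?_⟩
  by_contra hj
  have := key j hj χe hχe
  have := expo_lt hπ χe
  omega

/-- The inverse of an occurring character. -/
def oInv (χ : Occ A G) : Occ A G :=
  ⟨χ.1 ^ (ord G - 1), by
    obtain ⟨b, hb, hb'⟩ := χ.2
    exact ⟨b ^ (ord G - 1), pow_ne_zero _ hb, Eig.pow hb' _⟩⟩

lemma oInv_val_mul (χ : Occ A G) : (oInv χ).1 * χ.1 = 1 := by
  show χ.1 ^ (ord G - 1) * χ.1 = 1
  have key : ∀ a : G →* ℂˣ, a ^ (ord G - 1) * a = 1 := fun a => by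
    refine MonoidHom.ext fun g => ?_
    simp only [MonoidHom.mul_apply, MonoidHom.pow_apply, MonoidHom.one_apply]
    rw [← pow_succ, Nat.sub_add_cancel (ord_pos (G := G)), ← map_pow, pow_card_eq_one, map_one]
  exact key _

lemma oMul_oInv (χ : Occ A G) : oMul (oInv χ) χ = oOne := Subtype.ext (oInv_val_mul χ)

lemma oMul_cancel (χ ψ : Occ A G) : oMul (oInv ψ) (oMul χ ψ) = χ := by
  refine Subtype.ext ?_
  show (oInv ψ).1 * (χ.1 * ψ.1) = χ.1
  have key : ∀ a b d : G →* ℂˣ, a * d = 1 → a * (b * d) = b := fun a b d h => by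
    refine MonoidHom.ext fun g => ?_
    have hg : a g * d g = 1 := DFunLike.congr_fun h g
    simp only [MonoidHom.mul_apply]
    rw [mul_left_comm, hg, mul_one]
  exact key _ _ _ (oInv_val_mul ψ)

lemma expo_oInv_zero {π : Pol n} (hπ : Prime π) {χ : Occ A G} (h : expo π χ = 0) :
    expo π (oInv χ) = 0 := by
  obtain ⟨p, -, -, hexp⟩ := expo_mul hπ (oInv χ) χ
  rw [oMul_oInv, expo_oOne hπ, h, add_zero, add_zero] at hexp
  have h1 := expo_lt hπ (oInv χ)
  rcases Nat.eq_zero_or_pos (multiplicity π p) with hm | hm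
  · rw [hexp, hm, mul_zero]
  · have := Nat.le_mul_of_pos_right (ord G) hm; omega

lemma expo_oInv_pos {π : Pol n} (hπ : Prime π) {χ : Occ A G} (h : 0 < expo π χ) :
    expo π (oInv χ) + expo π χ = ord G := by
  obtain ⟨p, -, -, hexp⟩ := expo_mul hπ (oInv χ) χ
  rw [oMul_oInv, expo_oOne hπ, add_zero] at hexp
  have h1 := expo_lt hπ (oInv χ)
  have h2 := expo_lt hπ χ
  rcases Nat.lt_trichotomy (multiplicity π p) 1 with hm | hm | hm
  · simp only [Nat.lt_one_iff.1 hm, mul_zero] at hexp; omega
  · rw [hexp, hm, mul_one]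
  · have := Nat.mul_le_mul_left (ord G) hm; omega

lemma height_pt (c : Fin n → ℂ) : (pt c).height = n := by
  have hmax : ∀ M : Ideal (Pol n), M.IsMaximal → M.height = (pt c).height := by
    intro M hM
    obtain ⟨d, rfl⟩ := MvPolynomial.isMaximal_iff_eq_vanishingIdeal_singleton.1 hM
    let e : Pol n ≃ₐ[ℂ] Pol n := AlgEquiv.ofAlgHom
      (aeval fun k => X k + C (c k - d k)) (aeval fun k => X k + C (d k - c k))
      (algHom_ext fun k => by simp; ring) (algHom_ext fun k => by simp; ring)
    rw [← RingEquiv.height_comap e.toRingEquiv (vanishingIdeal ℂ {d})]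
    congr 1
    ext f
    have : eval d (e f) = eval c f := by
      induction f using MvPolynomial.induction_on with
      | C a => simp [e]
      | add p q hp hq => simp [hp, hq]
      | mul_X p k hp => simp [hp]; simp [e]
    simp only [Ideal.mem_comap, mem_vanishingIdeal_singleton_iff, mem_pt, aeval_eq_eval]
    exact Iff.of_eq (congrArg (· = 0) this)
  have hle : (pt c).height ≤ (n : ℕ∞) := by
    have := Ideal.height_le_ringKrullDim_of_ne_top (pt_isMaximal c).ne_top
    rw [MvPolynomial.ringKrullDim_of_isNoetherianRing, ringKrullDim_eq_zero_of_field, zero_add,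
      Nat.card_eq_fintype_card, Fintype.card_fin] at this
    exact_mod_cast this
  have hge : ringKrullDim (Pol n) ≤ ((pt c).height : WithBot ℕ∞) :=
    (ringKrullDim_le_iff_isMaximal_height_le _).2 fun M hM => by rw [hmax M hM]
  rw [MvPolynomial.ringKrullDim_of_isNoetherianRing, ringKrullDim_eq_zero_of_field, zero_add,
    Nat.card_eq_fintype_card, Fintype.card_fin] at hge
  exact le_antisymm hle (by exact_mod_cast hge)

/-- Regularity at a maximal ideal with rational residue field. -/
theorem regular_at (G : Type*) [CommGroup G] [Fintype G] [MulSemiringAction G A]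
    [SMulCommClass G (Pol n) A] [Algebra.IsInvariant (Pol n) A G] [SMulCommClass G ℂ A]
    [Module.Projective A (Derivation ℂ A A)] (m : Ideal A) [m.IsMaximal]
    (c : Fin n → ℂ) (hc : ∀ p : Pol n, up A p ∈ m ↔ eval c p = 0)
    (hres : ∀ a : A, ∃ z : ℂ, a - algebraMap ℂ A z ∈ m) :
    IsRegularLocalRing (Localization.AtPrime m) := by
  classical
  have : Module.Finite (Pol n) A := Module.Finite.of_basis (genBasis (n := n) (A := A) (G := G))
  have : Module.Free (Pol n) A := Module.Free.of_basis (genBasis (n := n) (A := A) (G := G))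
  have : IsNoetherianRing A := IsNoetherianRing.of_finite (Pol n) A
  obtain ⟨F⟩ := exists_frame (n := n) (G := G) m c hc
  have hdet := eval_det_ne F
  let R := Localization.AtPrime m
  let φ : A →+* R := algebraMap A R
  have hunit : ∀ a : A, a ∉ m → IsUnit (φ a) := fun a ha =>
    IsLocalization.map_units R (⟨a, ha⟩ : m.primeCompl)
  have hupu : ∀ p : Pol n, eval c p ≠ 0 → IsUnit (φ (up A p)) := fun p hp =>
    hunit _ fun h => hp ((hc p).1 h)
  have hz : ∀ i : Fin n, ∃ z : Pol n, eval c z = 0 ∧ (∀ j, j ≠ i → eval c (fld F.mat j z) = 0) ∧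
      eval c (fld F.mat i z) ≠ 0 := by
    intro i
    refine ⟨∑ k, C (eval c (F.mat.adjugate k i)) * (X k - C (c k)), by simp, ?_⟩
    have he : ∀ j, eval c (fld F.mat j (∑ k, C (eval c (F.mat.adjugate k i)) * (X k - C (c k))))
        = if j = i then eval c F.mat.det else 0 := by
      intro j
      have h1 := congrArg (eval c) (congrFun (congrFun (Matrix.mul_adjugate F.mat) j) i)
      simp only [Matrix.mul_apply, map_sum, map_mul, Matrix.smul_apply, Matrix.one_apply,
        smul_eq_mul] at h1
      rw [show (if j = i then eval c F.mat.det else 0)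
          = eval c F.mat.det * eval c (if j = i then 1 else 0 : Pol n) by split_ifs <;> simp, ← h1]
      simp [fld, mkDerivation_X, Derivation.leibniz]
      exact Finset.sum_congr rfl fun k _ => by ring
    exact ⟨fun j hj => by rw [he]; simp [hj], by rw [he]; simpa using hdet⟩
  choose z hz0 hzj hzi using hz
  let Ram : Fin n → Prop := fun i => ∃ π : Pol n, Prime π ∧ eval c π = 0 ∧
    0 < expo π (F.chars i)
  let t : Fin n → A := fun i =>
    if Ram i then gen (n := n) (oInv (F.chars i)) else up A (z i)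
  let J : Ideal R := Ideal.span (Set.range fun i => φ (t i))
  have htJ : ∀ i, φ (t i) ∈ J := fun i => Ideal.subset_span ⟨i, rfl⟩
  -- the index of a ramified prime
  have hidx : ∀ {π : Pol n}, Prime π → eval c π = 0 → ∀ {i}, 0 < expo π (F.chars i) →
      ∃ ε, 0 < ε ∧ expo π (F.chars i) + ε = ord G ∧
      (∀ χ : Occ A G, 0 < expo π χ → ε ≤ expo π χ) ∧
      (∀ j, j ≠ i → expo π (F.chars j) = 0 ∧ π ∣ fld F.mat j π) := by
    intro π hπ hπc i hpos
    obtain ⟨i', ε, h1, h2, h3, h4⟩ := ramified_index F hπ hπc hpos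
    rcases eq_or_ne i i' with rfl | hne
    · exact ⟨ε, h1, h2, h3, h4⟩
    · exact absurd (h4 i hne).1 hpos.ne'
  have huniq : ∀ {π ρ : Pol n}, Prime π → Prime ρ → eval c π = 0 → eval c ρ = 0 → ∀ {i},
      0 < expo π (F.chars i) → 0 < expo ρ (F.chars i) → Associated π ρ := by
    intro π ρ hπ hρ hπc hρc i h1 h2
    obtain ⟨ε, -, -, -, hj1⟩ := hidx hπ hπc h1
    obtain ⟨ε', -, -, -, hj2⟩ := hidx hρ hρc h2
    exact transversal_unique hdet i hπ hρ hπc hρc (fun j hj => (hj1 j hj).2)
      (fun j hj => (hj2 j hj).2)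
  -- a coordinate for every index
  have hZ : ∀ i : Fin n, ∃ Z : Pol n, eval c Z = 0 ∧ (∀ j, j ≠ i → eval c (fld F.mat j Z) = 0) ∧
      eval c (fld F.mat i Z) ≠ 0 ∧ φ (up A Z) ∈ J := by
    intro i
    by_cases hR : Ram i
    · obtain ⟨π, hπ, hπc, hpos⟩ := hR
      obtain ⟨ε, hε, hsum, hmin, hj⟩ := hidx hπ hπc hpos
      refine ⟨π, hπc, fun j hji => ?_, transversal hdet i hπ hπc (fun j hji => (hj j hji).2), ?_⟩
      · obtain ⟨d, hd⟩ := (hj j hji).2
        simp [hd, hπc]
      obtain ⟨p, hp, hmul, hexp⟩ := expo_mul hπ (oInv (F.chars i)) (F.chars i)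
      rw [oMul_oInv, expo_oOne hπ, expo_oInv_pos hπ hpos, add_zero] at hexp
      have hm1 : multiplicity π p = 1 :=
        Nat.eq_of_mul_eq_mul_left (ord_pos (G := G)) (by rw [mul_one]; exact hexp.symm)
      obtain ⟨q, rfl⟩ : π ∣ p := (mult_pos_iff hπ hp).1 (by omega)
      have hq : eval c q ≠ 0 := by
        intro hq
        obtain ⟨ρ, hρ, hρc, hρq⟩ := exists_prime_root (right_ne_zero_of_mul hp) hq
        rcases Nat.eq_zero_or_pos (expo ρ (F.chars i)) with h0 | hpos'
        · obtain ⟨p', hp', hmul', hexp'⟩ := expo_mul hρ (oInv (F.chars i)) (F.chars i)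
          have hpp : p' = π * q := up_inj (A := A)
            (mul_right_cancel₀ (gen_spec (n := n) _).2.1 (hmul'.symm.trans hmul))
          rw [oMul_oInv, expo_oOne hρ, h0, expo_oInv_zero hρ h0] at hexp'
          have := (mult_pos_iff hρ hp').2 (by rw [hpp]; exact hρq.mul_left π)
          have := Nat.le_mul_of_pos_right (ord G) this
          have := ord_pos (G := G)
          omega
        · have hπq := (huniq hπ hρ hπc hρc hpos hpos').dvd.trans hρq
          have := (mult_pos_iff hπ (right_ne_zero_of_mul hp)).2 hπq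
          rw [mult_mul hπ (left_ne_zero_of_mul hp) (right_ne_zero_of_mul hp),
            multiplicity_self] at hm1
          omega
      have hu1 : IsUnit (φ (up A q * gen (n := n) (oOne : Occ A G))) := by
        rw [map_mul]
        refine (hupu q hq).mul ?_
        have h1 : IsUnit (φ (gen (n := n) (oOne : Occ A G) ^ ord G)) := by
          rw [(gen_spec (n := n) (oOne : Occ A G)).2.2.1]
          refine hupu _ fun h0 => ?_
          obtain ⟨ρ, hρ, -, hρd⟩ := exists_prime_root (pw_ne _) h0
          exact ((mult_pos_iff hρ (pw_ne _)).2 hρd).ne' (expo_oOne hρ)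
        rw [map_pow] at h1
        exact (isUnit_pow_iff ord_pos.ne').1 h1
      rw [← Ideal.mul_unit_mem_iff_mem J hu1, ← map_mul]
      have ht : t i = gen (n := n) (oInv (F.chars i)) := if_pos ⟨π, hπ, hπc, hpos⟩
      rw [oMul_oInv, map_mul] at hmul
      rw [← mul_assoc, ← hmul, map_mul, ← ht]
      exact Ideal.mul_mem_right _ _ (htJ i)
    · have : t i = up A (z i) := if_neg hR
      exact ⟨z i, hz0 i, hzj i, hzi i, this ▸ htJ i⟩
  choose Z hZ0 hZj hZi hZJ using hZ
  have hM : IsLocalRing.maximalIdeal R = m.map φ :=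
    (Localization.AtPrime.map_eq_maximalIdeal).symm
  let I : Ideal R := (pt c).map (φ.comp (up A))
  have hIM : I ≤ IsLocalRing.maximalIdeal R := by
    rw [Ideal.map_le_iff_le_comap]
    intro f hf
    rw [Ideal.mem_comap, RingHom.comp_apply, hM]
    exact Ideal.mem_map_of_mem _ ((hc f).2 (mem_pt.1 hf))
  have hIJ : I ≤ J := by
    refine Submodule.le_of_le_smul_of_le_jacobson_bot (IsNoetherian.noetherian I)
      (IsLocalRing.maximalIdeal_le_jacobson ⊥) ?_
    rw [Ideal.map_le_iff_le_comap]
    intro f hf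
    let α : Fin n → ℂ := fun i => eval c (fld F.mat i f) / eval c (fld F.mat i (Z i))
    let g := f - ∑ i, C (α i) * Z i
    have hg : g ∈ pt c := by simp [g, mem_pt, mem_pt.1 hf, hZ0]
    have hDg : ∀ j, eval c (fld F.mat j g) = 0 := by
      intro j
      simp only [g, map_sub, map_sum, Derivation.leibniz, smul_eq_mul, derivation_C, mul_zero,
        add_zero, map_mul, eval_C]
      rw [Finset.sum_eq_single j (fun i _ hi => by simp [hZj i j (Ne.symm hi)]) (by simp)]
      simp [α, div_mul_cancel₀ _ (hZi j)]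
    have hpg : ∀ k, eval c (pderiv k g) = 0 := by
      intro k
      have := congrArg (eval c) (fld_expand F.mat (pderiv k) g)
      simp only [map_mul, map_sum, hDg, mul_zero, Finset.sum_const_zero] at this
      exact (mul_eq_zero.1 this).resolve_left hdet
    have hg2 : g ∈ pt c ^ 2 := by
      have h1 : euler c g ∈ pt c ^ 2 := by
        rw [deriv_expand, pow_two]
        exact Ideal.sum_mem _ fun k _ => Ideal.mul_mem_mul
          (by simp [euler, mkDerivation_X, mem_pt]) (mem_pt.2 (hpg k))
      simpa using Ideal.sub_mem _ h1 (euler_sub c g hg)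
    rw [Ideal.mem_comap, show f = (∑ i, C (α i) * Z i) + g by simp [g], map_add]
    refine Submodule.add_mem_sup ?_ ?_
    · rw [map_sum]
      exact Ideal.sum_mem _ fun i _ => by
        rw [map_mul]; exact Ideal.mul_mem_left _ _ (hZJ i)
    · rw [smul_eq_mul]
      refine Ideal.mul_mono_left hIM ?_
      have := Ideal.mem_map_of_mem (φ.comp (up A)) hg2
      rw [Ideal.map_pow, pow_two] at this
      exact this
  have hgen : ∀ χ : Occ A G, ∃ a : ℂ, φ (gen (n := n) χ - algebraMap ℂ A a) ∈ J := by
    intro χ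
    by_cases hram : ∃ π : Pol n, Prime π ∧ eval c π = 0 ∧ 0 < expo π χ
    · obtain ⟨π, hπ, hπc, hpos⟩ := hram
      obtain ⟨i, ε, hε, hsum, hmin, hj⟩ := ramified_index F hπ hπc hpos
      have hεle := hmin χ hpos
      have hposi : 0 < expo π (F.chars i) := by have := expo_lt hπ χ; omega
      have ht : t i = gen (n := n) (oInv (F.chars i)) := if_pos ⟨π, hπ, hπc, hposi⟩
      refine ⟨0, ?_⟩
      rw [map_zero, sub_zero]
      obtain ⟨p, hp, hmul, hpw⟩ := gen_mul (n := n) (oInv (F.chars i)) (oMul χ (F.chars i))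
      rw [oMul_cancel] at hmul
      have hpc : eval c p ≠ 0 := by
        intro h0
        obtain ⟨ρ, hρ, hρc, hρp⟩ := exists_prime_root hp h0
        have hexp := expo_add hρ (oInv (F.chars i)) (oMul χ (F.chars i)) hp hpw
        rw [oMul_cancel] at hexp
        have hm := Nat.le_mul_of_pos_right (ord G) ((mult_pos_iff hρ hp).2 hρp)
        obtain ⟨p', -, -, hexp'⟩ := expo_mul hρ χ (F.chars i)
        have h1 := expo_lt hρ χ
        have h2 := expo_lt hρ (oMul χ (F.chars i))
        rcases Nat.eq_zero_or_pos (expo ρ (F.chars i)) with h0' | hpos'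
        · rw [expo_oInv_zero hρ h0'] at hexp
          omega
        · have h3 := expo_oInv_pos hρ hpos'
          have hassoc := huniq hπ hρ hπc hρc hposi hpos'
          have hee : ∀ ψ : Occ A G, expo ρ ψ = expo π ψ := fun ψ =>
            multiplicity_eq_of_associated_left hassoc
          have h4 : ord G ≤ expo ρ χ + expo ρ (F.chars i) := by rw [hee, hee]; omega
          rcases Nat.eq_zero_or_pos (multiplicity ρ p') with hm' | hm'
          · rw [hm', mul_zero] at hexp'; omega
          · have := Nat.le_mul_of_pos_right (ord G) hm'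
            omega
      rw [← Ideal.unit_mul_mem_iff_mem J (hupu p hpc), ← map_mul, ← hmul, map_mul, ← ht]
      exact Ideal.mul_mem_right _ _ (htJ i)
    · have hpc : eval c (pw (n := n) χ) ≠ 0 := by
        intro h0
        obtain ⟨ρ, hρ, hρc, hρd⟩ := exists_prime_root (pw_ne _) h0
        exact hram ⟨ρ, hρ, hρc, (mult_pos_iff hρ (pw_ne _)).2 hρd⟩
      obtain ⟨a, ha⟩ := hres (gen (n := n) χ)
      refine ⟨a, ?_⟩
      let N := ord G
      have hgs := geom_sum₂_mul (gen (n := n) χ) (algebraMap ℂ A a) N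
      have hpa : eval c (pw (n := n) χ - C (a ^ N)) = 0 := by
        refine (hc _).1 ?_
        rw [map_sub, up_C, map_pow, ← (gen_spec (n := n) χ).2.2.1, ← hgs]
        exact Ideal.mul_mem_left _ _ ha
      have hS : ∑ i ∈ Finset.range N, gen (n := n) χ ^ i * algebraMap ℂ A a ^ (N - 1 - i) ∉ m := by
        intro hS
        have heq : Ideal.Quotient.mk m (gen (n := n) χ) = Ideal.Quotient.mk m (algebraMap ℂ A a) :=
          Ideal.Quotient.eq.2 ha
        rw [← Ideal.Quotient.eq_zero_iff_mem, map_sum] at hS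
        simp only [map_mul, map_pow, heq] at hS
        rw [geom_sum₂_self, ← map_pow, ← map_natCast (Ideal.Quotient.mk m), ← map_mul,
          Ideal.Quotient.eq_zero_iff_mem, ← map_natCast (algebraMap ℂ A), ← map_pow, ← map_mul,
          ← up_C (n := n), hc, eval_C] at hS
        have ha0 : a ≠ 0 := by
          rintro rfl
          simp [zero_pow (ord_pos (G := G)).ne', N] at hpa
          exact hpc hpa
        exact mul_ne_zero natCast_ord_ne (pow_ne_zero _ ha0) hS
      rw [← Ideal.unit_mul_mem_iff_mem J (hunit _ hS), ← map_mul, hgs, ← map_pow,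
        (gen_spec (n := n) χ).2.2.1, ← up_C (n := n), ← map_sub]
      exact hIJ (Ideal.mem_map_of_mem (φ.comp (up A)) (mem_pt.2 hpa))
  have hall : ∀ b : A, ∃ a : ℂ, φ (b - algebraMap ℂ A a) ∈ J := by
    intro b
    obtain ⟨r, rfl⟩ := span_gen (n := n) (G := G) b
    choose α hα using hgen
    refine ⟨∑ χ, eval c (r χ) * α χ, ?_⟩
    rw [map_sum, ← Finset.sum_sub_distrib, map_sum]
    refine Ideal.sum_mem _ fun χ _ => ?_
    have h1 : φ (up A (r χ - C (eval c (r χ)))) ∈ J :=
      hIJ (Ideal.mem_map_of_mem (φ.comp (up A)) (sub_const_mem c _))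
    convert Ideal.add_mem _ (Ideal.mul_mem_left _ (φ (up A (r χ))) (hα χ))
      (Ideal.mul_mem_right (φ (algebraMap ℂ A (α χ))) _ h1) using 1
    simp only [← map_mul, ← map_add]
    congr 1
    rw [map_sub, up_C, map_mul]
    ring
  have htm : ∀ i, t i ∈ m := by
    intro i
    by_cases hR : Ram i
    · obtain ⟨π, hπ, hπc, hpos⟩ := hR
      rw [show t i = gen (n := n) (oInv (F.chars i)) from if_pos ⟨π, hπ, hπc, hpos⟩]
      refine (inferInstance : m.IsPrime).mem_of_pow_mem (ord G) ?_
      rw [(gen_spec (n := n) _).2.2.1, hc]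
      have h1 := expo_oInv_pos hπ hpos
      have h2 := expo_lt hπ (F.chars i)
      obtain ⟨q, hq⟩ := (mult_pos_iff hπ (pw_ne (n := n) (oInv (F.chars i)))).1
        (show 0 < expo π (oInv (F.chars i)) by omega)
      simp [hq, hπc]
    · rw [show t i = up A (z i) from if_neg hR, hc]
      exact hz0 i
  have hJ : IsLocalRing.maximalIdeal R = J := by
    refine le_antisymm ?_ (Ideal.span_le.2 ?_)
    · rw [hM, Ideal.map_le_iff_le_comap]
      intro b hb
      obtain ⟨a, ha⟩ := hall b
      have hJM : J ≤ m.map φ := Ideal.span_le.2 (by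
        rintro _ ⟨i, rfl⟩; exact Ideal.mem_map_of_mem φ (htm i))
      have ha0 : a = 0 := by
        by_contra ha0
        have hm1 : φ (algebraMap ℂ A a) ∈ IsLocalRing.maximalIdeal R := by
          have := Ideal.sub_mem _ (Ideal.mem_map_of_mem φ hb) (hJM ha)
          rw [← hM, ← map_sub, sub_sub_cancel] at this
          exact this
        exact (IsLocalRing.mem_maximalIdeal _).1 hm1
          (((IsUnit.mk0 a ha0).map (algebraMap ℂ A)).map φ)
      simpa [ha0] using ha
    · rintro _ ⟨i, rfl⟩
      rw [hM]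
      exact Ideal.mem_map_of_mem φ (htm i)
  apply IsRegularLocalRing.of_spanFinrank_maximalIdeal_le
  have h1 : (IsLocalRing.maximalIdeal R).spanFinrank ≤ n := by
    rw [hJ]
    refine (Submodule.spanFinrank_span_le_ncard_of_finite (Set.finite_range _)).trans ?_
    rw [← Nat.card_coe_set_eq]
    simpa using Finite.card_range_le (fun i => φ (t i))
  have : m.LiesOver (pt c) := ⟨Ideal.ext fun p => by rw [Ideal.mem_comap, hc, mem_pt]⟩
  have := pt_isMaximal c
  have h2 : (n : ℕ∞) ≤ m.height := by
    rw [← height_pt c, Ideal.height_eq_height_add_of_liesOver_of_hasGoingDown (pt c) m]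
    exact le_self_add
  rw [IsLocalization.AtPrime.ringKrullDim_eq_height m R]
  calc ((IsLocalRing.maximalIdeal R).spanFinrank : WithBot ℕ∞) ≤ ((n : ℕ∞) : WithBot ℕ∞) := by
        exact_mod_cast h1
    _ ≤ _ := WithBot.coe_le_coe.2 h2

end

end Vale.Agent.P266
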