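import Mathlib

/-!
Local lemmas on the polynomial ring at a rational point: vector fields forming a frame
at the point, and ideals stable under them.
-/

namespace Vale.Agent.P266

open MvPolynomial Ideal

noncomputable section

variable {n : ℕ}

/-- The polynomial ring in `n` variables over the complex numbers. -/
abbrev Pol (n : ℕ) := MvPolynomial (Fin n) ℂ

/-- The maximal ideal of a point. -/
abbrev pt (c : Fin n → ℂ) : Ideal (Pol n) := RingHom.ker (eval c)

lemma pt_isMaximal (c : Fin n → ℂ) : (pt c).IsMaximal :=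
  RingHom.ker_isMaximal_of_surjective _ (fun z => ⟨C z, eval_C z⟩)

lemma mem_pt {c : Fin n → ℂ} {f : Pol n} : f ∈ pt c ↔ eval c f = 0 := RingHom.mem_ker

lemma sub_const_mem (c : Fin n → ℂ) (f : Pol n) : f - C (eval c f) ∈ pt c := by
  simp [mem_pt]

lemma pt_eq_span (c : Fin n → ℂ) :
    pt c = Ideal.span (Set.range fun k => (X k - C (c k) : Pol n)) := by
  apply le_antisymm
  · have key : ∀ f : Pol n,
        f - C (eval c f) ∈ Ideal.span (Set.range fun k => (X k - C (c k) : Pol n)) := by
      intro f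
      induction f using MvPolynomial.induction_on with
      | C a => simp
      | add p q hp hq => convert Ideal.add_mem _ hp hq using 1; simp; ring
      | mul_X p k hp =>
        have h1 := Ideal.mul_mem_right (X k) _ hp
        have h2 := Ideal.mul_mem_left (Ideal.span (Set.range fun k => (X k - C (c k) : Pol n)))
          (C (eval c p)) (Ideal.subset_span (Set.mem_range_self k))
        convert Ideal.add_mem _ h1 h2 using 1
        simp; ring
    intro f hf
    simpa [mem_pt.1 hf] using key f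
  · rw [Ideal.span_le]
    rintro _ ⟨k, rfl⟩
    simp [mem_pt]

/-- The Euler vector field at `c`. -/
def euler (c : Fin n → ℂ) : Derivation ℂ (Pol n) (Pol n) :=
  mkDerivation ℂ fun k => X k - C (c k)

lemma euler_sub (c : Fin n → ℂ) (f : Pol n) :
    f ∈ pt c → euler c f - f ∈ pt c ^ 2 := by
  intro hf
  rw [pt_eq_span] at hf
  induction hf using Submodule.span_induction with
  | mem x hx =>
    obtain ⟨k, rfl⟩ := hx
    simp [euler, mkDerivation_X]
  | zero => simp
  | add x y _ _ hx hy => convert Ideal.add_mem _ hx hy using 1; simp; ring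
  | smul a x hxm hx =>
    replace hxm : x ∈ pt c := by rw [pt_eq_span]; exact hxm
    have h1 : euler c a ∈ pt c := by
      have : ∀ g : Pol n, euler c g ∈ pt c := by
        intro g
        induction g using MvPolynomial.induction_on with
        | C a => simp [euler]
        | add p q hp hq => rw [map_add]; exact Ideal.add_mem _ hp hq
        | mul_X p k hp =>
          rw [Derivation.leibniz]
          refine Ideal.add_mem _ ?_ (Ideal.mul_mem_left _ _ hp)
          apply Ideal.mul_mem_left
          simp [euler, mem_pt]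
      exact this a
    have h2 : x * euler c a ∈ pt c ^ 2 := by
      rw [pow_two]; exact Ideal.mul_mem_mul hxm h1
    convert Ideal.add_mem _ (Ideal.mul_mem_left _ a hx) h2 using 1
    simp [smul_eq_mul]; ring

lemma euler_pow (c : Fin n → ℂ) (s : ℕ) {g : Pol n} (hg : g ∈ pt c ^ s) (hs : 1 ≤ s) :
    euler c g - (s : Pol n) * g ∈ pt c ^ (s + 1) := by
  induction s, hs using Nat.le_induction generalizing g with
  | base => rw [pow_one] at hg; simpa using euler_sub c g hg
  | succ s hs ih =>
    rw [pow_succ] at hg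
    induction hg using Submodule.mul_induction_on' with
    | mem_mul_mem a ha b hb =>
      have h1 := Ideal.mul_mem_mul (ih ha) hb
      have h2 := Ideal.mul_mem_mul ha (euler_sub c b hb)
      rw [← pow_succ] at h1
      rw [← pow_add] at h2
      convert Ideal.add_mem _ h1 h2 using 1
      rw [Derivation.leibniz]
      simp [smul_eq_mul]; ring
    | add x _ y _ hx hy => convert Ideal.add_mem _ hx hy using 1; simp; ring

lemma deriv_pow (c : Fin n → ℂ) (D : Derivation ℂ (Pol n) (Pol n)) (s : ℕ) {g : Pol n}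
    (hg : g ∈ pt c ^ (s + 1)) : D g ∈ pt c ^ s := by
  induction s generalizing g with
  | zero => simp
  | succ s ih =>
    rw [pow_succ] at hg
    induction hg using Submodule.mul_induction_on' with
    | mem_mul_mem a ha b hb =>
      rw [Derivation.leibniz, smul_eq_mul, smul_eq_mul]
      refine Ideal.add_mem _ (Ideal.mul_mem_right _ _ ha) ?_
      have := Ideal.mul_mem_mul (ih ha) hb
      rw [pow_succ]
      convert this using 1
      ring
    | add x _ y _ hx hy => rw [map_add]; exact Ideal.add_mem _ hx hy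

lemma deriv_expand (D : Derivation ℂ (Pol n) (Pol n)) (g : Pol n) :
    D g = ∑ k, D (X k) * pderiv k g := by
  classical
  induction g using MvPolynomial.induction_on with
  | C a => simp
  | add p q hp hq => simp [hp, hq, Finset.sum_add_distrib, mul_add]
  | mul_X p l hp =>
    rw [Derivation.leibniz, hp]
    simp only [pderiv_mul, pderiv_X, Pi.single_apply, smul_eq_mul, mul_add, Finset.sum_add_distrib,
      Finset.mul_sum, mul_ite, mul_one, mul_zero, Finset.sum_ite_eq, Finset.mem_univ, if_true]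
    rw [add_comm]
    congr 1
    · exact Finset.sum_congr rfl fun k _ => by ring
    · ring

/-- Elements that fall in `Q` after localisation at `c`. -/
def sat (c : Fin n → ℂ) (Q : Ideal (Pol n)) : Ideal (Pol n) where
  carrier := {f | ∃ t, eval c t ≠ 0 ∧ t * f ∈ Q}
  add_mem' := by
    rintro a b ⟨t, ht, hta⟩ ⟨u, hu, hub⟩
    refine ⟨t * u, by simp [ht, hu], ?_⟩
    convert Ideal.add_mem _ (Ideal.mul_mem_left _ u hta) (Ideal.mul_mem_left _ t hub) using 1
    ring
  zero_mem' := ⟨1, by simp, by simp⟩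
  smul_mem' := by
    rintro r a ⟨t, ht, hta⟩
    refine ⟨t, ht, ?_⟩
    convert Ideal.mul_mem_left _ r hta using 1
    simp; ring

lemma le_sat (c : Fin n → ℂ) (Q : Ideal (Pol n)) : Q ≤ sat c Q :=
  fun f hf => ⟨1, by simp, by simpa using hf⟩

lemma sat_le_pt {c : Fin n → ℂ} {Q : Ideal (Pol n)} (h : Q ≤ pt c) : sat c Q ≤ pt c := by
  rintro f ⟨t, ht, htf⟩
  have := mem_pt.1 (h htf)
  simp only [map_mul, mul_eq_zero] at this
  exact mem_pt.2 (this.resolve_left ht)

lemma mem_sat_of_mul {c : Fin n → ℂ} {Q : Ideal (Pol n)} {t f : Pol n} (ht : eval c t ≠ 0)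
    (h : t * f ∈ sat c Q) : f ∈ sat c Q := by
  obtain ⟨u, hu, hv⟩ := h
  exact ⟨u * t, by simp [hu, ht], by rwa [mul_assoc]⟩

lemma sat_mono (c : Fin n → ℂ) {Q Q' : Ideal (Pol n)} (h : Q ≤ Q') : sat c Q ≤ sat c Q' :=
  fun _ ⟨t, ht, htf⟩ => ⟨t, ht, h htf⟩

lemma deriv_sat {c : Fin n → ℂ} {G : Set (Pol n)} {Q' : Ideal (Pol n)}
    (D : Derivation ℂ (Pol n) (Pol n)) (hsub : G ⊆ sat c Q') (h : ∀ g ∈ G, D g ∈ sat c Q')
    {f : Pol n} (hf : f ∈ sat c (Ideal.span G)) : D f ∈ sat c Q' := by
  have key : ∀ x ∈ Ideal.span G, D x ∈ sat c Q' := by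
    intro x hx
    induction hx using Submodule.span_induction with
    | mem x hx => exact h x hx
    | zero => simp
    | add x y _ _ hx hy => rw [map_add]; exact Ideal.add_mem _ hx hy
    | smul a x hxm hx =>
      rw [smul_eq_mul, Derivation.leibniz, smul_eq_mul, smul_eq_mul]
      exact Ideal.add_mem _ (Ideal.mul_mem_left _ _ hx)
        (Ideal.mul_mem_right _ _ (Ideal.span_le.2 hsub hxm))
  obtain ⟨t, ht, htf⟩ := hf
  have h1 := key _ htf
  rw [Derivation.leibniz, smul_eq_mul, smul_eq_mul] at h1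
  have hfQ : f ∈ sat c Q' := mem_sat_of_mul ht (Ideal.span_le.2 hsub htf)
  apply mem_sat_of_mul ht
  simpa using Ideal.sub_mem _ h1 (Ideal.mul_mem_right (D t) _ hfQ)

/-- The vector fields with coefficient rows `a`. -/
def fld (a : Matrix (Fin n) (Fin n) (Pol n)) (i : Fin n) : Derivation ℂ (Pol n) (Pol n) :=
  mkDerivation ℂ (a i)

lemma fld_expand (a : Matrix (Fin n) (Fin n) (Pol n)) (D : Derivation ℂ (Pol n) (Pol n))
    (g : Pol n) : a.det * D g = ∑ i, (∑ k, D (X k) * a.adjugate k i) * fld a i g := by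
  classical
  have h : ∀ i, fld a i g = ∑ k, a i k * pderiv k g := fun i => by
    rw [deriv_expand (fld a i) g]; simp [fld, mkDerivation_X]
  have h2 : ∀ k l, ∑ i, a.adjugate k i * a i l = if k = l then a.det else 0 := by
    intro k l
    have := congrFun (congrFun (Matrix.adjugate_mul a) k) l
    simpa [Matrix.mul_apply, Matrix.smul_apply, Matrix.one_apply, mul_ite] using this
  rw [deriv_expand D g]
  simp only [h, Finset.sum_mul, Finset.mul_sum]
  conv_rhs => arg 2; ext i; rw [Finset.sum_comm]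
  rw [Finset.sum_comm]
  refine Finset.sum_congr rfl fun k _ => ?_
  rw [Finset.sum_comm]
  calc a.det * (D (X k) * pderiv k g)
      = ∑ l, D (X k) * (∑ i, a.adjugate k i * a i l) * pderiv l g := by
        simp [h2, mul_ite, ite_mul]; ring
    _ = _ := by
        refine Finset.sum_congr rfl fun l _ => ?_
        rw [Finset.mul_sum, Finset.sum_mul]
        exact Finset.sum_congr rfl fun i _ => by ring

lemma mem_sat_of_forall_pow {c : Fin n → ℂ} {K : Ideal (Pol n)} {f : Pol n}
    (h : ∀ s, f ∈ K ⊔ pt c ^ s) : f ∈ sat c K := by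
  let M := Pol n ⧸ K
  have hm : (Submodule.Quotient.mk f : M) ∈ (⨅ i : ℕ, pt c ^ i • ⊤ : Submodule (Pol n) M) := by
    rw [Submodule.mem_iInf]
    intro s
    obtain ⟨a, ha, g, hg, rfl⟩ := Submodule.mem_sup.1 (h s)
    have : (Submodule.Quotient.mk (a + g) : M) = g • (Submodule.Quotient.mk 1 : M) := by
      rw [← Submodule.Quotient.mk_smul, smul_eq_mul, mul_one, Submodule.Quotient.eq]
      simpa using ha
    rw [this]
    exact Submodule.smul_mem_smul hg Submodule.mem_top
  obtain ⟨⟨r, hr⟩, hr'⟩ := (Ideal.mem_iInf_smul_pow_eq_bot_iff (pt c) _).1 hm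
  refine ⟨1 - r, by simp [mem_pt.1 hr], ?_⟩
  rw [← Submodule.Quotient.mk_smul, Submodule.Quotient.eq, smul_eq_mul] at hr'
  have := neg_mem hr'
  convert this using 1
  ring

/-- An ideal at the point which is stable under a frame adapted to `q` lies in `(q)`. -/
lemma stable_le {c : Fin n → ℂ} {a : Matrix (Fin n) (Fin n) (Pol n)}
    (ha : eval c a.det ≠ 0) {Q K : Ideal (Pol n)}
    (δ : Fin n → Derivation ℂ (Pol n) (Pol n)) (R : Derivation ℂ (Pol n) (Pol n))
    (κ : Pol n) (hκ : eval c κ ≠ 0) (L : Pol n) (M : Fin n → Pol n)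
    (hM : ∀ j, M j ∈ pt c) (hL : L ∈ K ⊔ pt c ^ 2)
    (hdec : ∀ g, κ * euler c g = ∑ j, M j * δ j g + L * R g)
    (hK : ∀ j, ∀ f ∈ K, δ j f ∈ K) (hQ : ∀ j, ∀ f ∈ Q, δ j f ∈ Q) (hQn : Q ≤ pt c) :
    Q ≤ sat c K := by
  intro f hf
  apply mem_sat_of_forall_pow
  intro s
  induction s generalizing f with
  | zero => simp
  | succ s ih =>
    rcases Nat.eq_zero_or_pos s with rfl | hs
    · exact Submodule.mem_sup_right (by simpa using hQn hf)
    · obtain ⟨a, haK, g, hg, rfl⟩ := Submodule.mem_sup.1 (ih hf)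
      have h1 : ∀ j, M j * δ j g ∈ K ⊔ pt c ^ (s + 1) := by
        intro j
        have : δ j g ∈ K ⊔ pt c ^ s := by
          have := Ideal.sub_mem _ (ih (hQ j _ hf)) (Submodule.mem_sup_left (hK j _ haK))
          simpa using this
        obtain ⟨a', ha', g', hg', he⟩ := Submodule.mem_sup.1 this
        rw [← he, mul_add]
        refine Ideal.add_mem _ (Submodule.mem_sup_left (Ideal.mul_mem_left _ _ ha'))
          (Submodule.mem_sup_right ?_)
        rw [pow_succ, mul_comm (M j)]
        exact Ideal.mul_mem_mul hg' (hM j)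
      have h2 : L * R g ∈ K ⊔ pt c ^ (s + 1) := by
        obtain ⟨t, rfl⟩ := Nat.exists_eq_add_of_le hs
        obtain ⟨l, hl, m, hm, he⟩ := Submodule.mem_sup.1 hL
        rw [← he, add_mul]
        refine Ideal.add_mem _ (Submodule.mem_sup_left (Ideal.mul_mem_right _ _ hl))
          (Submodule.mem_sup_right ?_)
        have := Ideal.mul_mem_mul hm (deriv_pow c R t (by rwa [add_comm] at hg))
        rw [← pow_add] at this
        convert this using 2; omega
      have h3 : κ * ((s : Pol n) * g) ∈ K ⊔ pt c ^ (s + 1) := by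
        have h4 : κ * euler c g ∈ K ⊔ pt c ^ (s + 1) := by
          rw [hdec]; exact Ideal.add_mem _ (Ideal.sum_mem _ fun j _ => h1 j) h2
        have h5 : κ * (euler c g - (s : Pol n) * g) ∈ K ⊔ pt c ^ (s + 1) :=
          Submodule.mem_sup_right (Ideal.mul_mem_left _ _ (euler_pow c s hg hs))
        simpa [mul_sub] using Ideal.sub_mem _ h4 h5
      have hz : eval c κ * (s : ℂ) ≠ 0 :=
        mul_ne_zero hκ (Nat.cast_ne_zero.2 (by omega))
      have h6 : (κ - C (eval c κ)) * ((s : Pol n) * g) ∈ K ⊔ pt c ^ (s + 1) := by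
        refine Submodule.mem_sup_right ?_
        rw [pow_succ, mul_comm (κ - C (eval c κ))]
        exact Ideal.mul_mem_mul (Ideal.mul_mem_left _ _ hg) (sub_const_mem c κ)
      have h7 : g ∈ K ⊔ pt c ^ (s + 1) := by
        have h8 := Ideal.mul_mem_left _ (C (eval c κ * (s : ℂ))⁻¹) (Ideal.sub_mem _ h3 h6)
        convert h8 using 1
        have h9 : (C (eval c κ * (s : ℂ))⁻¹ : Pol n) * (C (eval c κ) * C (s : ℂ)) = 1 := by
          rw [← map_mul, ← map_mul, inv_mul_cancel₀ hz, map_one]
        rw [map_natCast] at h9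
        linear_combination (-g) * h9
      exact Ideal.add_mem _ (Submodule.mem_sup_left haK) h7

lemma euler_coeff_mem (c : Fin n → ℂ) (a : Matrix (Fin n) (Fin n) (Pol n)) (i : Fin n) :
    ∑ k, euler c (X k) * a.adjugate k i ∈ pt c :=
  Ideal.sum_mem _ fun k _ => Ideal.mul_mem_right _ _ (by simp [euler, mkDerivation_X, mem_pt])

lemma stable_le_span {c : Fin n → ℂ} {a : Matrix (Fin n) (Fin n) (Pol n)}
    (ha : eval c a.det ≠ 0) (i : Fin n) {q : Pol n} (hq : eval c q = 0)
    (hρ : eval c (fld a i q) ≠ 0) {Q : Ideal (Pol n)} (hQn : Q ≤ pt c)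
    (hQ : ∀ j, ∀ f ∈ Q, fld a i q * fld a j f - fld a j q * fld a i f ∈ Q) :
    Q ≤ sat c (Ideal.span {q}) := by
  let δ : Fin n → Derivation ℂ (Pol n) (Pol n) :=
    fun j => fld a i q • fld a j - fld a j q • fld a i
  refine stable_le ha δ (fld a i) (fld a i q * a.det) (by simp [hρ, ha])
    (a.det * euler c q) (fun j => ∑ k, euler c (X k) * a.adjugate k j)
    (euler_coeff_mem c a) ?_ ?_ ?_ (fun j f hf => by simpa [δ] using hQ j f hf) hQn
  · have h1 : a.det * (euler c q - q) ∈ pt c ^ 2 :=
      Ideal.mul_mem_left _ _ (euler_sub c q (mem_pt.2 hq))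
    have h2 : a.det * q ∈ Ideal.span {q} := Ideal.mem_span_singleton.2 (dvd_mul_left _ _)
    convert Submodule.add_mem_sup h2 h1 using 1
    ring
  · intro g
    rw [mul_assoc, fld_expand a (euler c) g, fld_expand a (euler c) q, Finset.mul_sum,
      Finset.sum_mul, ← Finset.sum_add_distrib]
    refine Finset.sum_congr rfl fun j _ => ?_
    simp [δ]; ring
  · intro j f hf
    obtain ⟨b, rfl⟩ := Ideal.mem_span_singleton.1 hf
    refine Ideal.mem_span_singleton.2 ⟨δ j b, ?_⟩
    simp only [δ, Derivation.sub_apply, Derivation.smul_apply, Derivation.leibniz, smul_eq_mul]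
    ring

/-- A prime through the point that is invariant under all but the `i`-th field of a frame
is transversal to the `i`-th field. -/
lemma transversal {c : Fin n → ℂ} {a : Matrix (Fin n) (Fin n) (Pol n)}
    (ha : eval c a.det ≠ 0) (i : Fin n) {π : Pol n} (hπ : Prime π) (hc : eval c π = 0)
    (hj : ∀ j, j ≠ i → π ∣ fld a j π) : eval c (fld a i π) ≠ 0 := by
  classical
  let R := fld a i
  let q : ℕ → Pol n := fun d => (⇑R)^[d] π
  let G : ℕ → Set (Pol n) := fun d => q '' {l | l ≤ d}
  have hqG : ∀ {l d}, l ≤ d → q l ∈ sat c (Ideal.span (G d)) := fun {l d} h =>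
    le_sat _ _ (Ideal.subset_span ⟨l, h, rfl⟩)
  have hqs : ∀ d, R (q d) = q (d + 1) := fun d => by simp [q, Function.iterate_succ_apply']
  have hGG : ∀ {l d}, l ≤ d → sat c (Ideal.span (G l)) ≤ sat c (Ideal.span (G d)) := fun {l d} h =>
    sat_mono c (Ideal.span_mono (Set.image_mono fun x (hx : x ≤ l) => hx.trans h))
  have hR : ∀ d, ∀ f ∈ sat c (Ideal.span (G d)), R f ∈ sat c (Ideal.span (G (d + 1))) := by
    intro d f hf
    refine deriv_sat R ?_ ?_ hf
    · rintro _ ⟨l, hl, rfl⟩; exact hqG (Nat.le_succ_of_le hl)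
    · rintro _ ⟨l, hl, rfl⟩; rw [hqs]; exact hqG (Nat.succ_le_succ hl)
  have hD : ∀ d, ∀ j, j ≠ i → fld a j (q d) ∈ sat c (Ideal.span (G d)) := by
    intro d
    induction d with
    | zero =>
      intro j hji
      obtain ⟨b, hb⟩ := hj j hji
      simp only [q, Function.iterate_zero, id] at hb ⊢
      rw [hb]
      exact Ideal.mul_mem_right _ _ (hqG (l := 0) le_rfl)
    | succ d ih =>
      intro j hji
      have h1 : R (fld a j (q d)) ∈ sat c (Ideal.span (G (d + 1))) := hR d _ (ih j hji)
      have h2 : ⁅fld a j, R⁆ (q d) ∈ sat c (Ideal.span (G (d + 1))) := by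
        apply mem_sat_of_mul ha
        rw [fld_expand a ⁅fld a j, R⁆ (q d)]
        refine Ideal.sum_mem _ fun l _ => Ideal.mul_mem_left _ _ ?_
        rcases eq_or_ne l i with rfl | hli
        · rw [show fld a l (q d) = q (d + 1) from hqs d]; exact hqG le_rfl
        · exact hGG (Nat.le_succ d) (ih l hli)
      have h3 := Ideal.add_mem _ h1 h2
      rw [← hqs]
      simpa [Derivation.commutator_apply] using h3
  obtain ⟨d, hd, hmin⟩ : ∃ d, eval c (q d) ≠ 0 ∧ ∀ l < d, eval c (q l) = 0 := by
    have hex : ∃ d, eval c (q d) ≠ 0 := by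
      by_contra h
      push Not at h
      let Q := sat c (Ideal.span (Set.range q))
      have hq : ∀ l, q l ∈ Q := fun l => le_sat _ _ (Ideal.subset_span ⟨l, rfl⟩)
      have hG : ∀ d, sat c (Ideal.span (G d)) ≤ Q := fun d =>
        sat_mono c (Ideal.span_mono (Set.image_subset_range _ _))
      have hQn : Q ≤ pt c := sat_le_pt (Ideal.span_le.2 (by
        rintro _ ⟨l, rfl⟩; exact mem_pt.2 (h l)))
      have hstab : ∀ j, ∀ f ∈ Q, fld a j f ∈ Q := by
        intro j f hf
        refine deriv_sat (fld a j) ?_ ?_ hf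
        · rintro _ ⟨l, rfl⟩; exact hq l
        · rintro _ ⟨l, rfl⟩
          rcases eq_or_ne j i with rfl | hji
          · rw [show fld a j (q l) = q (l + 1) from hqs l]; exact hq _
          · exact hG l (hD l j hji)
      have := stable_le ha (Q := Q) (K := ⊥) (fld a) R a.det ha 0
        (fun j => ∑ k, euler c (X k) * a.adjugate k j) (euler_coeff_mem c a)
        (Submodule.zero_mem _) (fun g => by rw [fld_expand a (euler c) g]; simp)
        (fun j f hf => by simp_all) hstab hQn (hq 0)
      obtain ⟨t, ht, htf⟩ := this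
      simp only [Ideal.mem_bot, mul_eq_zero, q, Function.iterate_zero, id] at htf
      rcases htf with h0 | h0
      · simp [h0] at ht
      · exact hπ.ne_zero h0
    exact ⟨Nat.find hex, Nat.find_spec hex, fun l hl => not_not.1 (Nat.find_min hex hl)⟩
  obtain ⟨m, rfl⟩ : ∃ m, d = m + 1 := by
    rcases d with _ | m
    · simp [q, hc] at hd
    · exact ⟨m, rfl⟩
  have hρ : eval c (fld a i (q m)) ≠ 0 := by rw [show fld a i (q m) = q (m + 1) from hqs m]; exact hd
  have hQn : sat c (Ideal.span (G m)) ≤ pt c := sat_le_pt (Ideal.span_le.2 (by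
    rintro _ ⟨l, hl, rfl⟩; exact mem_pt.2 (hmin l (Nat.lt_succ_of_le hl))))
  have hQ : ∀ j, ∀ f ∈ sat c (Ideal.span (G m)),
      fld a i (q m) * fld a j f - fld a j (q m) * fld a i f ∈ sat c (Ideal.span (G m)) := by
    intro j f hf
    have hsub : G m ⊆ sat c (Ideal.span (G m)) := by
      rintro _ ⟨l, hl, rfl⟩; exact hqG hl
    let δ : Derivation ℂ (Pol n) (Pol n) := fld a i (q m) • fld a j - fld a j (q m) • fld a i
    have : δ f ∈ sat c (Ideal.span (G m)) := by
      refine deriv_sat δ hsub ?_ hf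
      rintro _ ⟨l, hl, rfl⟩
      rcases eq_or_lt_of_le (show l ≤ m from hl) with rfl | hlt
      · simp [δ, mul_comm]
      rcases eq_or_ne j i with rfl | hji
      · simp [δ]
      simp only [δ, Derivation.sub_apply, Derivation.smul_apply, smul_eq_mul]
      refine Ideal.sub_mem _ (Ideal.mul_mem_left _ _ (hGG hl (hD l j hji)))
        (Ideal.mul_mem_left _ _ ?_)
      rw [show fld a i (q l) = q (l + 1) from hqs l]
      exact hqG hlt
    simpa [δ] using this
  obtain ⟨t, ht, htf⟩ :=
    stable_le_span ha i (hmin m (Nat.lt_succ_self m)) hρ hQn hQ (hqG (Nat.zero_le m))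
  obtain ⟨b, hb⟩ := Ideal.mem_span_singleton.1 htf
  simp only [q, Function.iterate_zero, id] at hb
  rcases hπ.dvd_or_dvd (show π ∣ q m * b from ⟨t, by rw [← hb]; ring⟩) with ⟨e, he⟩ | ⟨e, he⟩
  · intro h0
    apply hρ
    rw [he]
    simp [h0, hc]
  · exfalso
    apply ht
    have : t * π = (q m * e) * π := by rw [hb, he]; ring
    rw [mul_right_cancel₀ hπ.ne_zero this]
    simp [hmin m (Nat.lt_succ_self m)]

/-- At most one invariant prime for each index. -/
lemma transversal_unique {c : Fin n → ℂ} {a : Matrix (Fin n) (Fin n) (Pol n)}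
    (ha : eval c a.det ≠ 0) (i : Fin n) {π π' : Pol n} (hπ : Prime π) (hπ' : Prime π')
    (hc : eval c π = 0) (hc' : eval c π' = 0) (hj : ∀ j, j ≠ i → π ∣ fld a j π)
    (hj' : ∀ j, j ≠ i → π' ∣ fld a j π') : Associated π π' := by
  have hρ := transversal ha i hπ hc hj
  have hQn : sat c (Ideal.span {π, π'}) ≤ pt c := sat_le_pt (Ideal.span_le.2 (by
    rintro x (rfl | rfl) <;> simp [mem_pt, hc, hc']))
  have hm : ∀ x ∈ ({π, π'} : Set (Pol n)), x ∈ sat c (Ideal.span {π, π'}) := fun x hx =>
    le_sat _ _ (Ideal.subset_span hx)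
  have hQ : ∀ j, ∀ f ∈ sat c (Ideal.span {π, π'}),
      fld a i π * fld a j f - fld a j π * fld a i f ∈ sat c (Ideal.span {π, π'}) := by
    intro j f hf
    let δ : Derivation ℂ (Pol n) (Pol n) := fld a i π • fld a j - fld a j π • fld a i
    have : δ f ∈ sat c (Ideal.span {π, π'}) := by
      refine deriv_sat δ hm ?_ hf
      rintro x (rfl | rfl)
      · simp [δ, mul_comm]
      · rcases eq_or_ne j i with rfl | hji
        · simp [δ]
        · obtain ⟨b, hb⟩ := hj j hji
          obtain ⟨b', hb'⟩ := hj' j hji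
          simp only [δ, Derivation.sub_apply, Derivation.smul_apply, smul_eq_mul]
          rw [hb, hb']
          exact Ideal.sub_mem _ (Ideal.mul_mem_left _ _ (Ideal.mul_mem_right _ _ (hm _ (by simp))))
            (Ideal.mul_mem_right _ _ (Ideal.mul_mem_right _ _ (hm _ (by simp))))
    simpa [δ] using this
  obtain ⟨t, ht, htf⟩ := stable_le_span ha i hc hρ hQn hQ (hm π' (by simp))
  rcases hπ.dvd_or_dvd (Ideal.mem_span_singleton.1 htf) with ⟨e, he⟩ | h
  · simp [he, hc] at ht
  · exact hπ.associated_of_dvd hπ' h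

end

end Vale.Agent.P266
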